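import Vale.Agent.P181.Bdl.B1

set_option autoImplicit false

/-! Functionals on products of forms placed at points. -/

namespace Vale.Agent.P181.H241

open Vale.Agent.P181 Finset

variable {ι : Type*} [DecidableEq ι]
variable {A R : Type*} [CommRing A] [Algebra ℂ A] [CommRing R] [Algebra ℂ R]

/-- The functional `x ↦ φ (Θ x)`. -/
noncomputable def mf (φ : R →ₗ[ℂ] ℂ) (Θ : R) : R →ₗ[ℂ] ℂ := φ ∘ₗ LinearMap.mulLeft ℂ Θ

omit [DecidableEq ι] in
@[simp] lemma mf_apply (φ : R →ₗ[ℂ] ℂ) (Θ x : R) : mf φ Θ x = φ (Θ * x) := rfl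

/-- The bracket of the letters `u, v` at the points `p, q`. -/
def br (pl : ι → A →ₐ[ℂ] R) (p q : ι) (u v : A) : R := pl p u * pl q v - pl p v * pl q u

omit [DecidableEq ι] in
lemma br_self (pl : ι → A →ₐ[ℂ] R) (p : ι) (u v : A) : br pl p p u v = 0 := by
  simp only [br]; ring

omit [DecidableEq ι] in
lemma br_swap (pl : ι → A →ₐ[ℂ] R) (p q : ι) (u v : A) : br pl q p u v = br pl p q v u := by
  simp only [br]; ring

/-- `φ` vanishes on products of forms of degrees `c` at the points of `M`. -/
def Van (pl : ι → A →ₐ[ℂ] R) (L : Submodule ℂ A) (φ : R →ₗ[ℂ] ℂ) (M : Finset ι) (c : ι → ℕ) :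
    Prop :=
  ∀ P : ι → A, (∀ i ∈ M, P i ∈ L ^ c i) → φ (∏ i ∈ M, pl i (P i)) = 0

/-- `φ` kills the products of `B_i F` at the points of `M`, with the same `F` of degree `a`. -/
def Kil (pl : ι → A →ₐ[ℂ] R) (L : Submodule ℂ A) (a : ℕ) (φ : R →ₗ[ℂ] ℂ) (M : Finset ι)
    (b : ι → ℕ) : Prop :=
  ∀ F ∈ L ^ a, ∀ B : ι → A, (∀ i ∈ M, B i ∈ L ^ b i) → φ (∏ i ∈ M, pl i (B i * F)) = 0

lemma span_mul {L : Submodule ℂ A} {M : Type*} [AddCommGroup M] [Module ℂ M] (T : A →ₗ[ℂ] M)
    {r s : ℕ} (h : ∀ u ∈ L ^ r, ∀ v ∈ L ^ s, T (u * v) = 0) : ∀ X ∈ L ^ (r + s), T X = 0 := by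
  intro X hX
  rw [pow_add] at hX
  induction hX using Submodule.mul_induction_on' with
  | mem_mul_mem u hu v hv => exact h u hu v hv
  | add x _ y _ hx hy => rw [map_add, hx, hy, add_zero]

lemma coeff_zero (φ : R →ₗ[ℂ] ℂ) (W : Polynomial R)
    (h : ∀ t : ℂ, φ (W.eval (algebraMap ℂ R t)) = 0) (k : ℕ) : φ (W.coeff k) = 0 := by
  by_cases hk : k < W.natDegree + 1
  · have h1 := coeff_mem_of_forall (LinearMap.ker φ) (W.natDegree + 1) (fun j => W.coeff j) (by
      intro t
      rw [LinearMap.mem_ker, ← h t, Polynomial.eval_eq_sum_range]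
      congr 1
      apply Finset.sum_congr rfl
      intro j _
      rw [Algebra.smul_def, map_pow, mul_comm]) k hk
    exact h1
  · rw [Polynomial.coeff_eq_zero_of_natDegree_lt (by omega), map_zero]

lemma first_order_prod (φ : R →ₗ[ℂ] ℂ) (M : Finset ι) (α β : ι → R)
    (h : ∀ t : ℂ, φ (∏ i ∈ M, (α i + t • β i)) = 0) :
    ∑ l ∈ M, φ (β l * ∏ i ∈ M.erase l, α i) = 0 := by
  let W : Polynomial R := ∏ i ∈ M, (Polynomial.C (α i) + Polynomial.X * Polynomial.C (β i))
  have h1 : φ (W.coeff 1) = 0 := by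
    apply coeff_zero
    intro t
    rw [← h t]
    congr 1
    simp only [W, Polynomial.eval_prod, Polynomial.eval_add, Polynomial.eval_mul,
      Polynomial.eval_C, Polynomial.eval_X, Algebra.smul_def]
  have h2 : W.coeff 1 = ∑ l ∈ M, β l * ∏ i ∈ M.erase l, α i := by
    have h3 : W.coeff 1 = (Polynomial.derivative W).coeff 0 := by
      rw [Polynomial.coeff_derivative]; simp
    rw [h3, Polynomial.coeff_zero_eq_eval_zero]
    simp only [W]
    rw [Polynomial.derivative_prod_finset, Polynomial.eval_finsetSum]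
    apply Finset.sum_congr rfl
    intro l _
    rw [Polynomial.eval_mul, Polynomial.eval_prod, mul_comm]
    congr 1
    · simp
    · apply Finset.prod_congr rfl
      intro i _
      simp
  rw [h2, map_sum] at h1
  exact h1

variable {pl : ι → A →ₐ[ℂ] R} {L : Submodule ℂ A} {a : ℕ} {φ : R →ₗ[ℂ] ℂ} {M : Finset ι}

/-- First order relation. -/
lemma Kil.first {b : ι → ℕ} (h : Kil pl L a φ M b) {F G : A} (hF : F ∈ L ^ a) (hG : G ∈ L ^ a)
    (B : ι → A) (hB : ∀ i ∈ M, B i ∈ L ^ b i) :
    ∑ l ∈ M, φ (pl l (B l * G) * ∏ i ∈ M.erase l, pl i (B i * F)) = 0 := by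
  apply first_order_prod φ M (fun i => pl i (B i * F)) (fun i => pl i (B i * G))
  intro t
  rw [← h (F + t • G) (Submodule.add_mem _ hF (Submodule.smul_mem _ _ hG)) B hB]
  congr 1
  apply Finset.prod_congr rfl
  intro i _
  rw [mul_add, map_add, mul_smul_comm, map_smul]

/-- The exchange lemma: alternate letters of `G` with letters of the marks at the points of `S`. -/
lemma Kil.exch {b : ι → ℕ} (h : Kil pl L a φ M b) (hb : ∀ i ∈ M, 1 ≤ b i) (u v : ι → A)
    (hu : ∀ i, u i ∈ L) (hv : ∀ i, v i ∈ L) {F : A} (hF : F ∈ L ^ a) (S : Finset ι) (hS : S ⊆ M) :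
    ∀ s : ℕ, a = S.card + s → ∀ G ∈ L ^ s, ∀ B : ι → A, (∀ i ∈ S, B i ∈ L ^ (b i - 1)) →
      (∀ i ∈ M, i ∉ S → B i ∈ L ^ b i) →
      ∑ l ∈ M \ S, φ ((∏ j ∈ S, br pl l j (u j) (v j)) *
        (pl l (B l * G) * (∏ i ∈ M.erase l, pl i (B i)) * ∏ i ∈ M.erase l, pl i F)) = 0 := by
  induction S using Finset.induction_on with
  | empty =>
    intro s hs G hG B _ hB
    rw [Finset.card_empty, zero_add] at hs
    subst hs
    have h1 := h.first hF hG B (fun i hi => hB i hi (by simp))
    rw [Finset.sdiff_empty, ← h1]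
    apply Finset.sum_congr rfl
    intro l _
    rw [Finset.prod_empty, one_mul]
    congr 1
    have h5 : ∏ i ∈ M.erase l, pl i (B i * F) =
        (∏ i ∈ M.erase l, pl i (B i)) * ∏ i ∈ M.erase l, pl i F := by
      rw [← Finset.prod_mul_distrib]
      apply Finset.prod_congr rfl
      intro i _
      rw [map_mul]
    rw [h5, mul_assoc]
  | insert j S hj ih =>
    intro s hs G hG B hB1 hB2
    rw [Finset.card_insert_of_notMem hj] at hs
    have hjM : j ∈ M := hS (Finset.mem_insert_self j S)
    have hSM : S ⊆ M := fun i hi => hS (Finset.mem_insert_of_mem hi)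
    have hbj := hb j hjM
    have hs' : a = S.card + (s + 1) := by omega
    have hBj : B j ∈ L ^ (b j - 1) := hB1 j (Finset.mem_insert_self j S)
    have key : ∀ x y : A, x ∈ L → y ∈ L →
        ∑ l ∈ M \ S, φ ((∏ j ∈ S, br pl l j (u j) (v j)) *
          (pl l (Function.update B j (y * B j) l * (x * G)) *
            (∏ i ∈ M.erase l, pl i (Function.update B j (y * B j) i)) *
            ∏ i ∈ M.erase l, pl i F)) = 0 := by
      intro x y hx hy
      apply ih hSM (s + 1) hs' (x * G) (by rw [pow_succ']; exact Submodule.mul_mem_mul hx hG)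
      · intro i hi
        have hij : i ≠ j := fun e => hj (e ▸ hi)
        rw [Function.update_of_ne hij]
        exact hB1 i (Finset.mem_insert_of_mem hi)
      · intro i hi hiS
        by_cases hij : i = j
        · subst hij
          rw [Function.update_self]
          have h2 : b i = (b i - 1) + 1 := by omega
          rw [h2, pow_succ']
          exact Submodule.mul_mem_mul hy hBj
        · rw [Function.update_of_ne hij]
          exact hB2 i hi (by simp [hij, hiS])
    have h1 := key (u j) (v j) (hu j) (hv j)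
    have h2 := key (v j) (u j) (hv j) (hu j)
    have h3 := sub_eq_zero.2 (h1.trans h2.symm)
    rw [← Finset.sum_sub_distrib] at h3
    have hjMS : j ∈ M \ S := by rw [Finset.mem_sdiff]; exact ⟨hjM, hj⟩
    have hset : M \ insert j S = (M \ S).erase j := by
      ext i
      simp only [Finset.mem_sdiff, Finset.mem_insert, Finset.mem_erase]
      tauto
    rw [← Finset.add_sum_erase _ _ hjMS, ← hset] at h3
    have h4 : ∀ x y : A, (pl j (Function.update B j (y * B j) j * (x * G)) *
            (∏ i ∈ M.erase j, pl i (Function.update B j (y * B j) i)) *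
            ∏ i ∈ M.erase j, pl i F) = pl j x * pl j y * (pl j (B j * G) *
            (∏ i ∈ M.erase j, pl i (B i)) * ∏ i ∈ M.erase j, pl i F) := by
      intro x y
      rw [Function.update_self]
      have h5 : ∏ i ∈ M.erase j, pl i (Function.update B j (y * B j) i) =
          ∏ i ∈ M.erase j, pl i (B i) := by
        apply Finset.prod_congr rfl
        intro i hi
        rw [Function.update_of_ne (Finset.ne_of_mem_erase hi)]
      rw [h5]
      simp only [map_mul]
      ring
    have h6 : ∀ l ∈ M \ insert j S, ∀ x y : A, (pl l (Function.update B j (y * B j) l * (x * G)) *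
            (∏ i ∈ M.erase l, pl i (Function.update B j (y * B j) i)) *
            ∏ i ∈ M.erase l, pl i F) = pl l x * pl j y * (pl l (B l * G) *
            (∏ i ∈ M.erase l, pl i (B i)) * ∏ i ∈ M.erase l, pl i F) := by
      intro l hl x y
      rw [Finset.mem_sdiff, Finset.mem_insert, not_or] at hl
      have hlj : l ≠ j := hl.2.1
      rw [Function.update_of_ne hlj]
      have hj' : j ∈ M.erase l := Finset.mem_erase.2 ⟨hlj.symm, hjM⟩
      have h7 : ∏ i ∈ M.erase l, pl i (Function.update B j (y * B j) i) =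
          pl j y * ∏ i ∈ M.erase l, pl i (B i) := by
        rw [← Finset.mul_prod_erase _ _ hj', ← Finset.mul_prod_erase (M.erase l)
          (fun i => pl i (B i)) hj', Function.update_self, map_mul, mul_assoc]
        congr 2
        apply Finset.prod_congr rfl
        intro i hi
        rw [Function.update_of_ne (Finset.ne_of_mem_erase hi)]
      rw [h7]
      simp only [map_mul]
      ring
    rw [h4, h4] at h3
    have h8 : φ ((∏ i ∈ S, br pl j i (u i) (v i)) * (pl j (u j) * pl j (v j) * (pl j (B j * G) *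
            (∏ i ∈ M.erase j, pl i (B i)) * ∏ i ∈ M.erase j, pl i F))) -
        φ ((∏ i ∈ S, br pl j i (u i) (v i)) * (pl j (v j) * pl j (u j) * (pl j (B j * G) *
            (∏ i ∈ M.erase j, pl i (B i)) * ∏ i ∈ M.erase j, pl i F))) = 0 := by
      rw [mul_comm (pl j (u j)), sub_self]
    rw [h8, zero_add] at h3
    rw [← h3]
    apply Finset.sum_congr rfl
    intro l hl
    rw [h6 l hl, h6 l hl, ← map_sub]
    congr 1
    rw [Finset.prod_insert hj]
    simp only [br]
    ring

end Vale.Agent.P181.H241
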