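import Vale.Agent.P181.H241.Star

set_option autoImplicit false

/-! Products of brackets over pairs of points, and the lemma for functionals with a symmetry. -/

namespace Vale.Agent.P181.H241

open Vale.Agent.P181 Finset

variable {d : ℕ}
variable {A R : Type*} [CommRing A] [Algebra ℂ A] [CommRing R] [Algebra ℂ R]
variable {pl : Fin d → A →ₐ[ℂ] R} {L : Submodule ℂ A} {a : ℕ}

/-- The pairs of points not both in `M`. -/
def PS (M : Finset (Fin d)) : Finset (Fin d × Fin d) :=
  Finset.univ.filter (fun q => q.1 < q.2 ∧ ¬ (q.1 ∈ M ∧ q.2 ∈ M))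

/-- The product of the brackets over the pairs of points not both in `M`. -/
def Wp (pl : Fin d → A →ₐ[ℂ] R) (u v : Fin d → Fin d → A) (M : Finset (Fin d)) : R :=
  ∏ q ∈ PS M, br pl q.1 q.2 (u q.1 q.2) (v q.1 q.2)

lemma PS_univ : PS (Finset.univ : Finset (Fin d)) = ∅ := by
  ext q
  simp [PS]

/-- The ordered pair. -/
def op (p j : Fin d) : Fin d × Fin d := if p < j then (p, j) else (j, p)

lemma PS_insert {M : Finset (Fin d)} {p : Fin d} (hp : p ∉ M) :
    PS M = PS (insert p M) ∪ M.image (op p) := by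
  ext ⟨i, j⟩
  simp only [PS, Finset.mem_filter, Finset.mem_univ, true_and, Finset.mem_union,
    Finset.mem_insert, Finset.mem_image, op]
  constructor
  · rintro ⟨h1, h2⟩
    by_cases h3 : (i = p ∨ i ∈ M) ∧ (j = p ∨ j ∈ M)
    · right
      rcases h3.1 with rfl | hi
      · rcases h3.2 with rfl | hj
        · exact absurd h1 (lt_irrefl _)
        · exact ⟨j, hj, by rw [if_pos h1]⟩
      · rcases h3.2 with rfl | hj
        · refine ⟨i, hi, ?_⟩
          rw [if_neg (not_lt.2 h1.le)]
        · exact absurd ⟨hi, hj⟩ h2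
    · left
      exact ⟨h1, h3⟩
  · rintro (⟨h1, h2⟩ | ⟨k, hk, h1⟩)
    · exact ⟨h1, fun h => h2 ⟨Or.inr h.1, Or.inr h.2⟩⟩
    · by_cases hpk : p < k
      · rw [if_pos hpk, Prod.mk.injEq] at h1
        obtain ⟨rfl, rfl⟩ := h1
        exact ⟨hpk, fun h => hp h.1⟩
      · rw [if_neg hpk, Prod.mk.injEq] at h1
        obtain ⟨rfl, rfl⟩ := h1
        refine ⟨?_, fun h => hp h.2⟩
        exact lt_of_le_of_ne (not_lt.1 hpk) (fun h => hp (h ▸ hk))

lemma PS_disj {M : Finset (Fin d)} {p : Fin d} (hp : p ∉ M) :
    Disjoint (PS (insert p M)) (M.image (op p)) := by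
  rw [Finset.disjoint_left]
  rintro ⟨i, j⟩ h1 h2
  simp only [PS, Finset.mem_filter, Finset.mem_univ, true_and, Finset.mem_insert] at h1
  simp only [Finset.mem_image, op] at h2
  obtain ⟨k, hk, h2⟩ := h2
  apply h1.2
  by_cases hpk : p < k
  · rw [if_pos hpk, Prod.mk.injEq] at h2
    obtain ⟨rfl, rfl⟩ := h2
    exact ⟨Or.inl rfl, Or.inr hk⟩
  · rw [if_neg hpk, Prod.mk.injEq] at h2
    obtain ⟨rfl, rfl⟩ := h2
    exact ⟨Or.inr hk, Or.inl rfl⟩

lemma op_inj {M : Finset (Fin d)} {p : Fin d} (hp : p ∉ M) :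
    Set.InjOn (op p) (M : Set (Fin d)) := by
  intro j hj k hk h
  simp only [op] at h
  by_cases h1 : p < j
  · by_cases h2 : p < k
    · rw [if_pos h1, if_pos h2, Prod.mk.injEq] at h
      exact h.2
    · rw [if_pos h1, if_neg h2, Prod.mk.injEq] at h
      exact absurd hk (h.1 ▸ hp)
  · by_cases h2 : p < k
    · rw [if_neg h1, if_pos h2, Prod.mk.injEq] at h
      exact absurd hj (h.1 ▸ hp)
    · rw [if_neg h1, if_neg h2, Prod.mk.injEq] at h
      exact h.1

/-- Letters of the bracket of `p` with `j`. -/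
def lu (u v : Fin d → Fin d → A) (p j : Fin d) : A := if p < j then u p j else v j p
/-- Letters of the bracket of `p` with `j`. -/
def lv (u v : Fin d → Fin d → A) (p j : Fin d) : A := if p < j then v p j else u j p

lemma Wp_insert (u v : Fin d → Fin d → A) {M : Finset (Fin d)} {p : Fin d} (hp : p ∉ M) :
    Wp pl u v M = Wp pl u v (insert p M) *
      ∏ j ∈ M, br pl p j (lu u v p j) (lv u v p j) := by
  rw [Wp, PS_insert hp, Finset.prod_union (PS_disj hp), Finset.prod_image (op_inj hp), Wp]
  congr 1
  apply Finset.prod_congr rfl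
  intro j _
  by_cases h : p < j
  · simp only [op, lu, lv, if_pos h]
  · simp only [op, lu, lv, if_neg h]
    rw [br_swap]

/-- The chain of brackets. -/
theorem chain (hda : d ≤ a + 1) {g : R →ₗ[ℂ] ℂ}
    (hK : Kil pl L a g Finset.univ (fun _ => d - 2)) (u v : Fin d → Fin d → A)
    (hu : ∀ i j, u i j ∈ L) (hv : ∀ i j, v i j ∈ L) (C : Fin d → A) (hC : ∀ i, C i ∈ L ^ (a - 1)) :
    ∀ (k : ℕ) (M : Finset (Fin d)), M.card + k = d → 2 ≤ M.card →
      Kil pl L a (mf g ((∏ i ∈ Mᶜ, pl i (C i)) * Wp pl u v M)) M (fun _ => M.card - 2) := by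
  intro k
  induction k with
  | zero =>
    intro M hM _
    have h1 : M = Finset.univ := by
      rw [← Finset.card_eq_iff_eq_univ, Fintype.card_fin]; omega
    subst h1
    intro F hF B hB
    rw [mf_apply, Finset.compl_univ, Finset.prod_empty, Wp, PS_univ, Finset.prod_empty, one_mul,
      one_mul]
    apply hK F hF B
    intro i hi
    have h2 := hB i hi
    rw [Finset.card_univ, Fintype.card_fin] at h2
    exact h2
  | succ k ih =>
    intro M hM h2
    obtain ⟨p, hp⟩ : ∃ p, p ∉ M := by
      by_contra h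
      push Not at h
      have h1 : M = Finset.univ := Finset.eq_univ_iff_forall.2 h
      rw [h1, Finset.card_univ, Fintype.card_fin] at hM
      omega
    have hcard : (insert p M).card = M.card + 1 := Finset.card_insert_of_notMem hp
    have h1 := ih (insert p M) (by omega) (by omega)
    have h3 := chain_step (Finset.mem_insert_self p M) (by omega) (by omega) h1
      (lu u v p) (lv u v p) (by
        intro i; simp only [lu]; split_ifs
        · exact hu _ _
        · exact hv _ _) (by
        intro i; simp only [lv]; split_ifs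
        · exact hv _ _
        · exact hu _ _) (C p) (hC p)
    rw [Finset.erase_insert hp] at h3
    intro F hF B hB
    have h4 := h3 F hF B hB
    rw [mf_apply, mf_apply] at h4
    rw [mf_apply, ← h4, Wp_insert u v hp]
    have h5 : ∏ i ∈ Mᶜ, pl i (C i) = pl p (C p) * ∏ i ∈ (insert p M)ᶜ, pl i (C i) := by
      have h6 : Mᶜ = insert p (insert p M)ᶜ := by
        ext i
        simp only [Finset.mem_compl, Finset.mem_insert]
        by_cases hip : i = p
        · subst hip; tauto
        · tauto
      rw [h6, Finset.prod_insert (by simp)]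
    rw [h5]
    congr 1
    ring

/-- Modify the letters at the pairs `{p, j}`. -/
def mu (p : Fin d) (M : Finset (Fin d)) (u : Fin d → Fin d → A) (w w' : Fin d → A) :
    Fin d → Fin d → A :=
  fun i j => if i = p ∧ j ∈ M then w j else if j = p ∧ i ∈ M then w' i else u i j

lemma Wp_climb (u v : Fin d → Fin d → A) {M : Finset (Fin d)} {p : Fin d} (hp : p ∉ M)
    (w w' : Fin d → A) :
    Wp pl u v (insert p M) * ∏ j ∈ M, br pl p j (w j) (w' j) =
      Wp pl (mu p M u w w') (mu p M v w' w) M := by
  rw [Wp_insert _ _ hp]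
  congr 1
  · apply Finset.prod_congr rfl
    rintro ⟨i, j⟩ hij
    simp only [PS, Finset.mem_filter, Finset.mem_univ, true_and, Finset.mem_insert] at hij
    have h1 : ¬ (i = p ∧ j ∈ M) := fun h => hij.2 ⟨Or.inl h.1, Or.inr h.2⟩
    have h2 : ¬ (j = p ∧ i ∈ M) := fun h => hij.2 ⟨Or.inr h.2, Or.inl h.1⟩
    simp only [mu, if_neg h1, if_neg h2]
  · apply Finset.prod_congr rfl
    intro j hj
    have hjp : j ≠ p := fun h => hp (h ▸ hj)
    by_cases h : p < j
    · simp only [lu, lv, mu, if_pos h, hj, and_true, if_true]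
    · simp only [lu, lv, mu, if_neg h, hj, hjp, hp, false_and, and_false, if_false, and_true,
        if_true]

/-- The vanishing at level `M`. -/
def SM (pl : Fin d → A →ₐ[ℂ] R) (L : Submodule ℂ A) (a : ℕ) (g : R →ₗ[ℂ] ℂ)
    (M : Finset (Fin d)) : Prop :=
  ∀ u v : Fin d → Fin d → A, (∀ i j, u i j ∈ L) → (∀ i j, v i j ∈ L) →
    ∀ C : Fin d → A, (∀ i, C i ∈ L ^ (a - 1)) → ∀ B : Fin d → A,
      (∀ i ∈ M, B i ∈ L ^ (a + (M.card - 2))) →
      g ((∏ i ∈ Mᶜ, pl i (C i)) * Wp pl u v M * ∏ i ∈ M, pl i (B i)) = 0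

theorem climb (hmerge : MergeH pl L) (ha : 1 ≤ a) (hda : d ≤ a + 1) {g : R →ₗ[ℂ] ℂ}
    (hK : Kil pl L a g Finset.univ (fun _ => d - 2)) {M : Finset (Fin d)} {p : Fin d}
    (hp : p ∉ M) (hM : 2 ≤ M.card) (h : SM pl L a g M) : SM pl L a g (insert p M) := by
  intro u v hu hv C hC B hB
  have hcard : (insert p M).card = M.card + 1 := Finset.card_insert_of_notMem hp
  have hle : (insert p M).card ≤ d := by
    have := Finset.card_le_univ (insert p M)
    rwa [Fintype.card_fin] at this
  have h1 := chain hda hK u v hu hv C hC (d - (insert p M).card) (insert p M) (by omega) (by omega)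
  have h2 := star hmerge (Finset.mem_insert_self p M) ha (by omega) h1 (by
    intro w w' hw hw' C' hC' B' hB'
    rw [Finset.erase_insert hp] at hB' ⊢
    have hCC : ∀ i, Function.update C p C' i ∈ L ^ (a - 1) := by
      intro i
      by_cases hip : i = p
      · subst hip; rw [Function.update_self]; exact hC'
      · rw [Function.update_of_ne hip]; exact hC i
    have h3 := h (mu p M u w w') (mu p M v w' w) (by
      intro i j; simp only [mu]; split_ifs
      · exact hw _
      · exact hw' _
      · exact hu _ _) (by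
      intro i j; simp only [mu]; split_ifs
      · exact hw' _
      · exact hw _
      · exact hv _ _) (Function.update C p C') hCC B' (by
      intro i hi
      have h4 := hB' i hi
      have h5 : (insert p M).card - 3 = M.card - 2 := by omega
      rw [h5] at h4
      exact h4)
    rw [mf_apply, ← h3, ← Wp_climb u v hp]
    have h6 : Mᶜ = insert p (insert p M)ᶜ := by
      ext i
      simp only [Finset.mem_compl, Finset.mem_insert]
      by_cases hip : i = p
      · subst hip; tauto
      · tauto
    rw [h6, Finset.prod_insert (by simp), Function.update_self]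
    have h7 : ∏ i ∈ (insert p M)ᶜ, pl i (Function.update C p C' i) =
        ∏ i ∈ (insert p M)ᶜ, pl i (C i) := by
      apply Finset.prod_congr rfl
      intro i hi
      rw [Function.update_of_ne]
      rintro rfl
      simp at hi
    rw [h7]
    congr 1
    ring) (B p) (hB p (Finset.mem_insert_self p M)) B
    (fun i hi => hB i (Finset.mem_of_mem_erase hi))
  rw [mf_apply, Finset.erase_insert hp] at h2
  rw [Finset.prod_insert hp, ← h2]

theorem climb_all (hmerge : MergeH pl L) (ha : 1 ≤ a) (hda : d ≤ a + 1) {g : R →ₗ[ℂ] ℂ}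
    (hK : Kil pl L a g Finset.univ (fun _ => d - 2)) :
    ∀ (k : ℕ) (M : Finset (Fin d)), M.card + k = d → 2 ≤ M.card → SM pl L a g M →
      SM pl L a g Finset.univ := by
  intro k
  induction k with
  | zero =>
    intro M hM _ h
    have h1 : M = Finset.univ := by
      rw [← Finset.card_eq_iff_eq_univ, Fintype.card_fin]; omega
    rw [← h1]
    exact h
  | succ k ih =>
    intro M hM h2 h
    obtain ⟨p, hp⟩ : ∃ p, p ∉ M := by
      by_contra h
      push Not at h
      have h1 : M = Finset.univ := Finset.eq_univ_iff_forall.2 h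
      rw [h1, Finset.card_univ, Fintype.card_fin] at hM
      omega
    have hcard : (insert p M).card = M.card + 1 := Finset.card_insert_of_notMem hp
    exact ih (insert p M) (by omega) (by omega) (climb hmerge ha hda hK hp h2 h)

/-- Letters with the roles of `x` and `y` exchanged in the rows of `S`. -/
def sw (x y : Fin d) (S : Finset (Fin d)) (u : Fin d → Fin d → A) : Fin d → Fin d → A :=
  fun i j => if i ∈ S then u i (Equiv.swap x y j) else u i j

/-- The invariance under the exchange of the letters in one row. -/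
theorem row_swap (ha : 2 ≤ a) (hda : d ≤ a + 1) {g : R →ₗ[ℂ] ℂ}
    (hK : Kil pl L a g Finset.univ (fun _ => d - 2)) {x y i : Fin d} (hxy : x < y) (hix : i < x)
    (u v : Fin d → Fin d → A) (hu : ∀ i j, u i j ∈ L) (hv : ∀ i j, v i j ∈ L)
    (C : Fin d → A) (hC : ∀ i, C i ∈ L ^ (a - 1)) {P Q : A} (hP : P ∈ L ^ a) (hQ : Q ∈ L ^ a) :
    g ((∏ i ∈ ({x, y} : Finset (Fin d))ᶜ, pl i (C i)) * Wp pl u v {x, y} * (pl x P * pl y Q)) =
      g ((∏ i ∈ ({x, y} : Finset (Fin d))ᶜ, pl i (C i)) *
        Wp pl (sw x y {i} u) (sw x y {i} v) {x, y} * (pl x P * pl y Q)) := by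
  have hiy : i < y := hix.trans hxy
  have hi : i ∉ ({x, y} : Finset (Fin d)) := by
    simp only [Finset.mem_insert, Finset.mem_singleton, not_or]
    exact ⟨hix.ne, hiy.ne⟩
  have hcard : (insert i ({x, y} : Finset (Fin d))).card = 3 := by
    rw [Finset.card_insert_of_notMem hi, Finset.card_pair hxy.ne]
  have hd3 : 3 ≤ d := by
    have := Finset.card_le_univ (insert i ({x, y} : Finset (Fin d)))
    rw [hcard, Fintype.card_fin] at this
    exact this
  have h1 := chain hda hK u v hu hv C hC (d - 3) (insert i {x, y}) (by omega) (by omega)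
  rw [hcard] at h1
  have h2 := H3_of_Kil hix.ne hiy.ne hxy.ne h1
  have hlx : lu u v i x = u i x := by simp only [lu, if_pos hix]
  have hly : lu u v i y = u i y := by simp only [lu, if_pos hiy]
  have hmx : lv u v i x = v i x := by simp only [lv, if_pos hix]
  have hmy : lv u v i y = v i y := by simp only [lv, if_pos hiy]
  have hC' : ∀ w ∈ L, w * C i ∈ L ^ a := by
    intro w hw
    have h3 : a = (a - 1) + 1 := by omega
    rw [h3, pow_succ']
    exact Submodule.mul_mem_mul hw (hC i)
  have hz : ∀ w ∈ L, ∀ w' ∈ L, g ((∏ i ∈ (insert i ({x, y} : Finset (Fin d)))ᶜ, pl i (C i)) *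
      Wp pl u v (insert i {x, y}) * (det3 pl i x y (u i x) (v i x) w' *
        (pl i (w * C i) * pl x P * pl y Q))) = 0 := by
    intro w hw w' hw'
    have h3 := h2.det3_zero ha (hu i x) (hv i x) hw' (hC' w hw) hP hQ
    rw [mf_apply] at h3
    exact h3
  have hcomp : ({x, y} : Finset (Fin d))ᶜ = insert i (insert i ({x, y} : Finset (Fin d)))ᶜ := by
    ext j
    simp only [Finset.mem_compl, Finset.mem_insert, Finset.mem_singleton, not_or]
    by_cases hj : j = i
    · subst hj
      simp only [true_or, iff_true]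
      exact ⟨hix.ne, hiy.ne⟩
    · tauto
  have hprod : ∏ i ∈ ({x, y} : Finset (Fin d))ᶜ, pl i (C i) =
      pl i (C i) * ∏ i ∈ (insert i ({x, y} : Finset (Fin d)))ᶜ, pl i (C i) := by
    rw [hcomp, Finset.prod_insert (by simp)]
  have hW : Wp pl (sw x y {i} u) (sw x y {i} v) (insert i {x, y}) =
      Wp pl u v (insert i {x, y}) := by
    apply Finset.prod_congr rfl
    rintro ⟨k, l⟩ hkl
    simp only [PS, Finset.mem_filter, Finset.mem_univ, true_and, Finset.mem_insert,
      Finset.mem_singleton] at hkl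
    by_cases hk : k = i
    · subst hk
      have hlx' : l ≠ x := fun h => hkl.2 ⟨Or.inl rfl, Or.inr (Or.inl h)⟩
      have hly' : l ≠ y := fun h => hkl.2 ⟨Or.inl rfl, Or.inr (Or.inr h)⟩
      simp only [sw, Finset.mem_singleton, if_true, Equiv.swap_apply_of_ne_of_ne hlx' hly']
    · simp only [sw, Finset.mem_singleton, if_neg hk]
  have hlx2 : lu (sw x y {i} u) (sw x y {i} v) i x = u i y := by
    simp only [lu, if_pos hix, sw, Finset.mem_singleton, if_true, Equiv.swap_apply_left]
  have hly2 : lu (sw x y {i} u) (sw x y {i} v) i y = u i x := by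
    simp only [lu, if_pos hiy, sw, Finset.mem_singleton, if_true, Equiv.swap_apply_right]
  have hmx2 : lv (sw x y {i} u) (sw x y {i} v) i x = v i y := by
    simp only [lv, if_pos hix, sw, Finset.mem_singleton, if_true, Equiv.swap_apply_left]
  have hmy2 : lv (sw x y {i} u) (sw x y {i} v) i y = v i x := by
    simp only [lv, if_pos hiy, sw, Finset.mem_singleton, if_true, Equiv.swap_apply_right]
  rw [Wp_insert u v hi, Wp_insert _ _ hi, hW, Finset.prod_pair hxy.ne, Finset.prod_pair hxy.ne,
    hlx, hly, hmx, hmy, hlx2, hly2, hmx2, hmy2, hprod, ← sub_eq_zero, ← map_sub]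
  have e1 := hz (u i y) (hu i y) (v i y) (hv i y)
  have e2 := hz (v i y) (hv i y) (u i y) (hu i y)
  have e3 := sub_eq_zero.2 (e1.trans e2.symm)
  rw [← map_sub] at e3
  rw [← e3]
  congr 1
  simp only [br, det3, map_mul]
  ring

/-- The invariance under the exchange of all the letters. -/
theorem rows_swap (ha : 2 ≤ a) (hda : d ≤ a + 1) {g : R →ₗ[ℂ] ℂ}
    (hK : Kil pl L a g Finset.univ (fun _ => d - 2)) {x y : Fin d} (hxy : x < y)
    (u v : Fin d → Fin d → A) (hu : ∀ i j, u i j ∈ L) (hv : ∀ i j, v i j ∈ L)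
    (C : Fin d → A) (hC : ∀ i, C i ∈ L ^ (a - 1)) {P Q : A} (hP : P ∈ L ^ a) (hQ : Q ∈ L ^ a)
    (S : Finset (Fin d)) (hS : ∀ i ∈ S, i < x) :
    g ((∏ i ∈ ({x, y} : Finset (Fin d))ᶜ, pl i (C i)) * Wp pl u v {x, y} * (pl x P * pl y Q)) =
      g ((∏ i ∈ ({x, y} : Finset (Fin d))ᶜ, pl i (C i)) *
        Wp pl (sw x y S u) (sw x y S v) {x, y} * (pl x P * pl y Q)) := by
  induction S using Finset.induction_on with
  | empty =>
    have h1 : ∀ w : Fin d → Fin d → A, sw x y ∅ w = w := by
      intro w; funext i j; simp [sw]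
    rw [h1, h1]
  | insert i S hi ih =>
    rw [ih (fun j hj => hS j (Finset.mem_insert_of_mem hj))]
    have hswL : ∀ w : Fin d → Fin d → A, (∀ i j, w i j ∈ L) → ∀ i j, sw x y S w i j ∈ L := by
      intro w hw i j
      simp only [sw]
      split_ifs
      · exact hw _ _
      · exact hw _ _
    rw [row_swap ha hda hK hxy (hS i (Finset.mem_insert_self i S)) (sw x y S u) (sw x y S v)
      (hswL u hu) (hswL v hv) C hC hP hQ]
    have h1 : ∀ w : Fin d → Fin d → A, sw x y {i} (sw x y S w) = sw x y (insert i S) w := by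
      intro w; funext k l
      simp only [sw, Finset.mem_singleton, Finset.mem_insert]
      by_cases hk : k = i
      · subst hk
        simp [hi]
      · simp [hk]
    rw [h1, h1]

/-- **The lemma for functionals with a symmetry.** -/
theorem C1 (hmerge : MergeH pl L) (ha : 2 ≤ a) (hda : d ≤ a + 1) {g : R →ₗ[ℂ] ℂ}
    (hK : Kil pl L a g Finset.univ (fun _ => d - 2)) {x y : Fin d} (hxy : x < y)
    (htop : ∀ i, i ≠ x → i ≠ y → i < x) (τ : R →ₐ[ℂ] R)
    (hτ : ∀ i P, τ (pl i P) = pl (Equiv.swap x y i) P) (hsym : ∀ M, g (τ M) = g M) :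
    ∀ B : Fin d → A, (∀ i, B i ∈ L ^ (a + (d - 2))) → g (∏ i, pl i (B i)) = 0 := by
  have hbase : SM pl L a g {x, y} := by
    intro u v hu hv C hC B hB
    have hB' : ∀ i ∈ ({x, y} : Finset (Fin d)), B i ∈ L ^ a := by
      intro i hi
      have h1 := hB i hi
      rw [Finset.card_pair hxy.ne] at h1
      exact h1
    have hP := hB' x (by simp)
    have hQ := hB' y (by simp)
    rw [Finset.prod_pair hxy.ne]
    have hd2 : 2 ≤ d := by
      have := Finset.card_le_univ ({x, y} : Finset (Fin d))
      rw [Finset.card_pair hxy.ne, Fintype.card_fin] at this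
      exact this
    have h1 := chain hda hK u v hu hv C hC (d - 2) {x, y}
      (by rw [Finset.card_pair hxy.ne]; omega) (by rw [Finset.card_pair hxy.ne])
    rw [Finset.card_pair hxy.ne] at h1
    have h2 := two_points hxy.ne h1 hP hQ
    rw [mf_apply, mf_apply] at h2
    -- symmetry
    have hpair : ∀ q ∈ PS ({x, y} : Finset (Fin d)), q.1 < x ∧ q.1 < y := by
      rintro ⟨i, j⟩ hij
      simp only [PS, Finset.mem_filter, Finset.mem_univ, true_and, Finset.mem_insert,
        Finset.mem_singleton] at hij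
      have hix : i ≠ x := by
        rintro rfl
        have hjx : j ≠ i := hij.1.ne'
        have hjy : j ≠ y := fun h => hij.2 ⟨Or.inl rfl, Or.inr h⟩
        exact absurd (htop j hjx hjy) (not_lt.2 hij.1.le)
      have hiy : i ≠ y := by
        rintro rfl
        have hjx : j ≠ x := by
          rintro rfl
          exact absurd hij.1 (not_lt.2 hxy.le)
        have hjy : j ≠ i := hij.1.ne'
        exact absurd ((htop j hjx hjy).trans hxy) (not_lt.2 hij.1.le)
      exact ⟨htop i hix hiy, (htop i hix hiy).trans hxy⟩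
    have hτC : τ (∏ i ∈ ({x, y} : Finset (Fin d))ᶜ, pl i (C i)) =
        ∏ i ∈ ({x, y} : Finset (Fin d))ᶜ, pl i (C i) := by
      rw [map_prod]
      apply Finset.prod_congr rfl
      intro i hi
      simp only [Finset.mem_compl, Finset.mem_insert, Finset.mem_singleton, not_or] at hi
      rw [hτ, Equiv.swap_apply_of_ne_of_ne hi.1 hi.2]
    have hτW : τ (Wp pl u v {x, y}) = Wp pl (sw x y (Finset.univ.filter (· < x)) u)
        (sw x y (Finset.univ.filter (· < x)) v) {x, y} := by
      rw [Wp, map_prod, Wp]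
      refine Finset.prod_bij' (fun q _ => (q.1, Equiv.swap x y q.2))
        (fun q _ => (q.1, Equiv.swap x y q.2)) ?_ ?_ ?_ ?_ ?_
      · rintro ⟨i, j⟩ hij
        have h3 := hpair _ hij
        simp only [PS, Finset.mem_filter, Finset.mem_univ, true_and, Finset.mem_insert,
          Finset.mem_singleton] at hij ⊢
        constructor
        · by_cases hjx : j = x
          · rw [hjx, Equiv.swap_apply_left]; exact h3.2
          · by_cases hjy : j = y
            · rw [hjy, Equiv.swap_apply_right]; exact h3.1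
            · rw [Equiv.swap_apply_of_ne_of_ne hjx hjy]; exact hij.1
        · rintro ⟨h4 | h4, _⟩
          · exact absurd h4 h3.1.ne
          · exact absurd h4 h3.2.ne
      · rintro ⟨i, j⟩ hij
        have h3 := hpair _ hij
        simp only [PS, Finset.mem_filter, Finset.mem_univ, true_and, Finset.mem_insert,
          Finset.mem_singleton] at hij ⊢
        constructor
        · by_cases hjx : j = x
          · rw [hjx, Equiv.swap_apply_left]; exact h3.2
          · by_cases hjy : j = y
            · rw [hjy, Equiv.swap_apply_right]; exact h3.1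
            · rw [Equiv.swap_apply_of_ne_of_ne hjx hjy]; exact hij.1
        · rintro ⟨h4 | h4, _⟩
          · exact absurd h4 h3.1.ne
          · exact absurd h4 h3.2.ne
      · rintro ⟨i, j⟩ _
        simp
      · rintro ⟨i, j⟩ _
        simp
      · rintro ⟨i, j⟩ hij
        have h3 := hpair _ hij
        have h4 : i ∈ Finset.univ.filter (· < x) := by simpa using h3.1
        simp only [br, map_sub, map_mul, hτ, sw, h4, if_true, Equiv.swap_apply_self]
        rw [Equiv.swap_apply_of_ne_of_ne h3.1.ne h3.2.ne]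
    have h3 := hsym ((∏ i ∈ ({x, y} : Finset (Fin d))ᶜ, pl i (C i)) * Wp pl u v {x, y} *
      (pl x (B y) * pl y (B x)))
    rw [map_mul τ, map_mul τ, hτC, hτW, map_mul τ, hτ, hτ, Equiv.swap_apply_left,
      Equiv.swap_apply_right] at h3
    have h4 := rows_swap ha hda hK hxy u v hu hv C hC hP hQ (Finset.univ.filter (· < x))
      (by simp)
    rw [mul_comm (pl y (B y))] at h3
    rw [h3, h2] at h4
    have h5 := self_eq_neg.1 h4
    exact h5
  have hd2 : 2 ≤ d := by
    have := Finset.card_le_univ ({x, y} : Finset (Fin d))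
    rw [Finset.card_pair hxy.ne, Fintype.card_fin] at this
    exact this
  have h1 := climb_all hmerge (by omega) hda hK (d - 2) {x, y}
    (by rw [Finset.card_pair hxy.ne]; omega) (by rw [Finset.card_pair hxy.ne]) hbase
  intro B hB
  have h2 := h1 (fun _ _ => 0) (fun _ _ => 0) (fun _ _ => L.zero_mem) (fun _ _ => L.zero_mem)
    (fun _ => 0) (fun _ => Submodule.zero_mem _) B (by
      intro i _
      rw [Finset.card_univ, Fintype.card_fin]
      exact hB i)
  rw [Finset.compl_univ, Finset.prod_empty, Wp, PS_univ, Finset.prod_empty, one_mul, one_mul] at h2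
  exact h2

end Vale.Agent.P181.H241
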