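import Vale.Agent.P181.H241.Main
import Vale.Agent.P181.H797.R1
import Vale.Agent.P181.H563.Merge

set_option autoImplicit false

/-! The theorem on functionals. -/

namespace Vale.Agent.P181.H241

open Vale.Agent.P181 Vale.Agent.P181.H280 Finset MvPolynomial

variable {N : ℕ}

/-- The minor omitting the point `0`. -/
noncomputable def D0 (N : ℕ) : MvPolynomial (Fin (N + 2) × Fin (N + 1)) ℂ := Dt Fin.succ

/-- The minor omitting the point `1`. -/
noncomputable def D1 (N : ℕ) : MvPolynomial (Fin (N + 2) × Fin (N + 1)) ℂ := Dt (p1 N)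

/-- The points `2, 3, …`. -/
def JJ (N : ℕ) : Finset (Fin (N + 2)) :=
  Finset.univ.map ⟨fun j : Fin N => j.succ.succ, fun i j h => by simpa using h⟩

lemma prod_JJ {R : Type*} [CommMonoid R] (g : Fin (N + 2) → R) :
    ∏ i ∈ JJ N, g i = ∏ j : Fin N, g j.succ.succ := by
  rw [JJ, Finset.prod_map]
  rfl

lemma prod_split {R : Type*} [CommMonoid R] (g : Fin (N + 2) → R) :
    ∏ i, g i = g 0 * g 1 * ∏ j : Fin N, g j.succ.succ := by
  rw [Fin.prod_univ_succ, Fin.prod_univ_succ, Fin.succ_zero_eq_one, mul_assoc]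

lemma card_JJ : (JJ N).card = N := by
  rw [JJ, Finset.card_map, Finset.card_univ, Fintype.card_fin]

lemma zero_notMem_JJ : (0 : Fin (N + 2)) ∉ JJ N := by
  simp only [JJ, Finset.mem_map, Finset.mem_univ, true_and, not_exists]
  intro j h
  have h1 : (j.succ.succ : Fin (N + 2)) = 0 := h
  exact Fin.succ_ne_zero _ h1

lemma mem_JJ (j : Fin N) : j.succ.succ ∈ JJ N := by
  simp only [JJ, Finset.mem_map, Finset.mem_univ, true_and]
  exact ⟨j, rfl⟩

section

variable {f : MvPolynomial (Fin (N + 2) × Fin (N + 1)) ℂ →ₗ[ℂ] ℂ}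

lemma stepH (hs : ∀ (σ : Equiv.Perm (Fin (N + 2))) M, f (rename (Prod.map σ id) M) = f M)
    (hk : ∀ F ∈ linS (N + 1) ^ (N + 2), f (∏ i, rename (Prod.mk i) (F * F)) = 0) :
    ∀ F ∈ linS (N + 1) ^ (N + 2), ∀ B : Fin (N + 1) → MvPolynomial (Fin (N + 1)) ℂ,
      (∀ j, B j ∈ linS (N + 1) ^ (N + 1)) →
      mf f (D0 N) (rename (Prod.mk 0) (F * F) *
        ∏ j : Fin (N + 1), rename (Prod.mk j.succ) (B j * F)) = 0 := by
  intro F hF B hB
  rw [D0, mf_apply]
  exact H797.one f hs hk F hF B hB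

lemma stepR (hs : ∀ (σ : Equiv.Perm (Fin (N + 2))) M, f (rename (Prod.map σ id) M) = f M)
    (hk : ∀ F ∈ linS (N + 1) ^ (N + 2), f (∏ i, rename (Prod.mk i) (F * F)) = 0)
    {F : MvPolynomial (Fin (N + 1)) ℂ} (hF : F ∈ linS (N + 1) ^ (N + 2))
    {G : MvPolynomial (Fin (N + 1)) ℂ} (hG : G ∈ linS (N + 1) ^ (N + 1))
    {B1 : MvPolynomial (Fin (N + 1)) ℂ} (hB1 : B1 ∈ linS (N + 1) ^ (N + 1))
    (B : Fin N → MvPolynomial (Fin (N + 1)) ℂ) (hB : ∀ j, B j ∈ linS (N + 1) ^ N) :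
    2 * f (D0 N * (D1 N * (plm N 0 (F * G) * plm N 1 (B1 * F) *
      ∏ j : Fin N, plm N j.succ.succ (B j * F)))) +
    f (D0 N * (D0 N * (plm N 0 (F * F) * plm N 1 (B1 * G) *
      ∏ j : Fin N, plm N j.succ.succ (B j * F)))) = 0 := by
  have h := H797.rOne (mf f (D0 N)) (stepH hs hk) F hF G hG B1 hB1 B hB
  rw [mf_apply, mf_apply] at h
  have e0 : D0 N = Matrix.det (Matrix.of fun s t : Fin (N + 1) =>
        (X (t.succ, s) : MvPolynomial (Fin (N + 2) × Fin (N + 1)) ℂ)) := rfl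
  have e1 : D1 N = Matrix.det (Matrix.of fun s t : Fin (N + 1) =>
        (X ((Fin.cons 0 (fun t : Fin N => t.succ.succ) : Fin (N + 1) → Fin (N + 2)) t, s) :
          MvPolynomial (Fin (N + 2) × Fin (N + 1)) ℂ)) := rfl
  rw [← e0, ← e1] at h
  exact h

lemma combK {R : Type*} [CommRing R] [Algebra ℂ R] (φ : R →ₗ[ℂ] ℂ) (d0 d1 X1 X2 Y1 Y2 W : R)
    (h1 : 2 * φ (d0 * (d1 * X1)) + φ (d0 * (d0 * Y1)) = 0)
    (h2 : 2 * φ (d0 * (d1 * X2)) + φ (d0 * (d0 * Y2)) = 0) (h3 : Y1 = Y2)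
    (h4 : W = d1 * (X1 - X2)) : φ (d0 * W) = 0 := by
  subst h3
  have h5 : φ (d0 * (d1 * X1)) - φ (d0 * (d1 * X2)) = 0 := by
    linear_combination (1 / 2 : ℂ) * h1 - (1 / 2 : ℂ) * h2
  rw [h4, mul_sub, mul_sub, map_sub, h5]

lemma stepK (hs : ∀ (σ : Equiv.Perm (Fin (N + 2))) M, f (rename (Prod.map σ id) M) = f M)
    (hk : ∀ F ∈ linS (N + 1) ^ (N + 2), f (∏ i, rename (Prod.mk i) (F * F)) = 0)
    {u v : MvPolynomial (Fin (N + 1)) ℂ} (hu : u ∈ linS (N + 1)) (hv : v ∈ linS (N + 1)) :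
    Kil (plm N) (linS (N + 1)) (N + 2) (mf f (D0 N * D1 N * br (plm N) 0 1 u v)) Finset.univ
      (fun _ => N + 2 - 2) := by
  intro F hF B hB
  have hB' : ∀ i, B i ∈ linS (N + 1) ^ N := fun i => hB i (Finset.mem_univ i)
  have hl : ∀ {X Y : MvPolynomial (Fin (N + 1)) ℂ}, X ∈ linS (N + 1) → Y ∈ linS (N + 1) ^ N →
      X * Y ∈ linS (N + 1) ^ (N + 1) := by
    intro X Y hX hY
    rw [pow_succ']; exact Submodule.mul_mem_mul hX hY
  have h1 := stepR hs hk hF (hl hu (hB' 0)) (hl hv (hB' 1)) (fun j => B j.succ.succ)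
    (fun j => hB' _)
  have h2 := stepR hs hk hF (hl hv (hB' 0)) (hl hu (hB' 1)) (fun j => B j.succ.succ)
    (fun j => hB' _)
  rw [mf_apply, mul_assoc (D0 N), mul_assoc (D0 N)]
  refine combK f (D0 N) (D1 N) _ _ _ _ _ h1 h2 ?_ ?_
  · have e1 : plm N 1 (v * B 1 * (u * B 0)) = plm N 1 (u * B 1 * (v * B 0)) := by
      congr 1
      ring
    rw [e1]
  · rw [prod_split]
    generalize (∏ j : Fin N, plm N j.succ.succ (B j.succ.succ * F)) = W
    simp only [br, map_mul]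
    ring

lemma swap_pt {pt : Fin (N + 1) → Fin (N + 2)} (h : Function.Injective pt) (s t : Fin (N + 1)) :
    (Equiv.swap (pt s) (pt t)) ∘ pt = pt ∘ (Equiv.swap s t) := by
  funext k
  simp only [Function.comp_apply]
  exact (Function.Injective.map_swap h s t k).symm

lemma p1_inj : Function.Injective (p1 N) := by
  rw [p1, Fin.cons_injective_iff]
  constructor
  · rintro ⟨j, hj⟩
    exact Fin.succ_ne_zero _ hj
  · intro i j h
    simpa using h

lemma ren_plm (σ : Equiv.Perm (Fin (N + 2))) (i : Fin (N + 2))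
    (P : MvPolynomial (Fin (N + 1)) ℂ) :
    rename (Prod.map σ id) (plm N i P) = plm N (σ i) P := by
  simp only [plm, rename_rename]
  rfl

lemma stepC (hN : 2 ≤ N)
    (hs : ∀ (σ : Equiv.Perm (Fin (N + 2))) M, f (rename (Prod.map σ id) M) = f M)
    (hk : ∀ F ∈ linS (N + 1) ^ (N + 2), f (∏ i, rename (Prod.mk i) (F * F)) = 0)
    {u v : MvPolynomial (Fin (N + 1)) ℂ} (hu : u ∈ linS (N + 1)) (hv : v ∈ linS (N + 1)) :
    ∀ B : Fin (N + 2) → MvPolynomial (Fin (N + 1)) ℂ, (∀ i, B i ∈ linS (N + 1) ^ (N + 2 + N)) →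
      f (D0 N * D1 N * br (plm N) 0 1 u v * ∏ i, plm N i (B i)) = 0 := by
  intro B hB
  -- the two points
  let x' : Fin (N + 1) := ⟨N - 1, by omega⟩
  let y' : Fin (N + 1) := ⟨N, by omega⟩
  let x : Fin (N + 2) := ⟨N, by omega⟩
  let y : Fin (N + 2) := ⟨N + 1, by omega⟩
  have hxy : x < y := by rw [Fin.lt_def]; simp [x, y]
  have hne' : x' ≠ y' := by
    intro h
    have := congrArg Fin.val h
    simp only [x', y'] at this
    omega
  have hsx : (Fin.succ x' : Fin (N + 2)) = x := by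
    ext; simp only [x', x, Fin.val_succ]; omega
  have hsy : (Fin.succ y' : Fin (N + 2)) = y := by
    ext; simp only [y', y, Fin.val_succ]
  have hpx : p1 N x' = x := by
    have h1 : x' = Fin.succ (⟨N - 2, by omega⟩ : Fin N) := by
      ext; simp only [x', Fin.val_succ]; omega
    rw [h1, p1, Fin.cons_succ]
    ext; simp only [x, Fin.val_succ]; omega
  have hpy : p1 N y' = y := by
    have h1 : y' = Fin.succ (⟨N - 1, by omega⟩ : Fin N) := by
      ext; simp only [y', Fin.val_succ]; omega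
    rw [h1, p1, Fin.cons_succ]
    ext; simp only [y, Fin.val_succ]; omega
  have h0x : (0 : Fin (N + 2)) ≠ x := by
    intro h; have := congrArg Fin.val h; simp only [x, Fin.val_zero] at this; omega
  have h0y : (0 : Fin (N + 2)) ≠ y := by
    intro h; have := congrArg Fin.val h; simp only [y, Fin.val_zero] at this; omega
  have h1x : (1 : Fin (N + 2)) ≠ x := by
    intro h; have := congrArg Fin.val h; simp only [x, Fin.val_one] at this; omega
  have h1y : (1 : Fin (N + 2)) ≠ y := by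
    intro h; have := congrArg Fin.val h; simp only [y, Fin.val_one] at this; omega
  have hD : ∀ pt : Fin (N + 1) → Fin (N + 2), Function.Injective pt → pt x' = x → pt y' = y →
      rename (Prod.map (Equiv.swap x y) id) (Dt pt) = - Dt pt := by
    intro pt hpt h1 h2
    rw [ren_Dt, ← h1, ← h2, swap_pt hpt, Dt_perm, Equiv.Perm.sign_swap hne']
    simp
  have key := C1 (H563.mergeH (ι := Fin (N + 2)) (N + 1)) (a := N + 2) (by omega) (by omega)
    (stepK hs hk hu hv) hxy (by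
      intro i h1 h2
      rw [Fin.lt_def]
      have h3 : (i : ℕ) ≠ N := fun h => h1 (Fin.ext h)
      have h4 : (i : ℕ) ≠ N + 1 := fun h => h2 (Fin.ext h)
      have := i.2
      simp only [x]
      omega) (rename (Prod.map (Equiv.swap x y) id)) (fun i P => ren_plm _ i P) (by
      intro M
      have h1 := hs (Equiv.swap x y) (D0 N * D1 N * br (plm N) 0 1 u v * M)
      have h2 : rename (Prod.map (Equiv.swap x y) id) (br (plm N) 0 1 u v) =
          br (plm N) 0 1 u v := by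
        simp only [br, map_sub, map_mul, ren_plm, Equiv.swap_apply_of_ne_of_ne h0x h0y,
          Equiv.swap_apply_of_ne_of_ne h1x h1y]
      have h3 : rename (Prod.map (Equiv.swap x y) id) (D0 N) = - D0 N :=
        hD _ (Fin.succ_injective _) hsx hsy
      have h4 : rename (Prod.map (Equiv.swap x y) id) (D1 N) = - D1 N := hD _ p1_inj hpx hpy
      rw [map_mul (rename (Prod.map (Equiv.swap x y) id)), map_mul (rename _),
        map_mul (rename _), h2, h3, h4, neg_mul_neg] at h1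
      rw [mf_apply, mf_apply, ← h1]) B hB
  exact key

lemma expD0 : D0 N = ∑ σ : Equiv.Perm (Fin (N + 1)),
    ((Equiv.Perm.sign σ : ℤ) : MvPolynomial (Fin (N + 2) × Fin (N + 1)) ℂ) *
      ∏ t, plm N t.succ (X (σ t)) := by
  rw [D0, Dt, Matrix.det_apply']
  apply Finset.sum_congr rfl
  intro σ _
  congr 1
  apply Finset.prod_congr rfl
  intro t _
  rw [Matrix.of_apply, plm, rename_X]

/-- The family killed by `f · D0 · D0`. -/
lemma stepD (hs : ∀ (σ : Equiv.Perm (Fin (N + 2))) M, f (rename (Prod.map σ id) M) = f M)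
    (hk : ∀ F ∈ linS (N + 1) ^ (N + 2), f (∏ i, rename (Prod.mk i) (F * F)) = 0)
    {F C : MvPolynomial (Fin (N + 1)) ℂ} (hF : F ∈ linS (N + 1) ^ (N + 2))
    (hC : C ∈ linS (N + 1) ^ N) (B : Fin N → MvPolynomial (Fin (N + 1)) ℂ)
    (hB : ∀ j, B j ∈ linS (N + 1) ^ N) :
    f (D0 N * (D0 N * (plm N 0 (F * F) * plm N 1 (C * F) *
      ∏ j : Fin N, plm N j.succ.succ (B j * F)))) = 0 := by
  rw [mul_left_comm, expD0, Finset.sum_mul, map_sum]
  apply Finset.sum_eq_zero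
  intro σ _
  have h4 := stepH hs hk F hF (fun t => X (σ t) *
    (Fin.cons C B : Fin (N + 1) → MvPolynomial (Fin (N + 1)) ℂ) t) (by
      intro t
      rw [pow_succ']
      apply Submodule.mul_mem_mul (X_mem_linS _)
      refine Fin.cases ?_ (fun j => ?_) t
      · exact hC
      · exact hB j)
  have h5 : ∏ t : Fin (N + 1), (rename (Prod.mk t.succ) (X (σ t) *
      (Fin.cons C B : Fin (N + 1) → MvPolynomial (Fin (N + 1)) ℂ) t * F) :
        MvPolynomial (Fin (N + 2) × Fin (N + 1)) ℂ) =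
      (∏ t, plm N t.succ (X (σ t))) * (plm N 1 (C * F) *
        ∏ j : Fin N, plm N j.succ.succ (B j * F)) := by
    have h6 : ∀ t : Fin (N + 1), (rename (Prod.mk t.succ) (X (σ t) *
      (Fin.cons C B : Fin (N + 1) → MvPolynomial (Fin (N + 1)) ℂ) t * F) :
        MvPolynomial (Fin (N + 2) × Fin (N + 1)) ℂ) = plm N t.succ (X (σ t)) *
        plm N t.succ ((Fin.cons C B : Fin (N + 1) → MvPolynomial (Fin (N + 1)) ℂ) t * F) := by
      intro t
      rw [plm, ← map_mul, mul_assoc]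
    rw [Finset.prod_congr rfl (fun t _ => h6 t), Finset.prod_mul_distrib]
    congr 1
    rw [Fin.prod_univ_succ, Fin.succ_zero_eq_one]
    rfl
  rw [h5, mf_apply] at h4
  rw [← expD0]
  generalize hW : (∏ t, plm N t.succ (X (σ t)) :
    MvPolynomial (Fin (N + 2) × Fin (N + 1)) ℂ) = W at h4 ⊢
  generalize hV : (∏ j : Fin N, plm N j.succ.succ (B j * F) :
    MvPolynomial (Fin (N + 2) × Fin (N + 1)) ℂ) = V at h4 ⊢
  have h7 : (((Equiv.Perm.sign σ : ℤ) :
      MvPolynomial (Fin (N + 2) × Fin (N + 1)) ℂ) * W) *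
      (D0 N * (plm N 0 (F * F) * plm N 1 (C * F) * V)) =
      (Equiv.Perm.sign σ : ℤ) • (D0 N * (rename (Prod.mk 0) (F * F) *
        (W * (plm N 1 (C * F) * V)))) := by
    rw [zsmul_eq_mul]
    simp only [plm]
    ring
  rw [h7, map_zsmul, h4, smul_zero]

/-- The relation for the merged functional. -/
lemma stepG (hs : ∀ (σ : Equiv.Perm (Fin (N + 2))) M, f (rename (Prod.map σ id) M) = f M)
    (hk : ∀ F ∈ linS (N + 1) ^ (N + 2), f (∏ i, rename (Prod.mk i) (F * F)) = 0)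
    (γ : MvPolynomial (Fin (N + 2) × Fin (N + 1)) ℂ →ₗ[ℂ] ℂ)
    (hγ : ∀ P ∈ linS (N + 1) ^ (N + 2 + N + 1), ∀ Q ∈ linS (N + 1) ^ (N + 2 + N + 1),
      ∀ B : Fin (N + 2) → MvPolynomial (Fin (N + 1)) ℂ,
      (∀ i ∈ JJ N, B i ∈ linS (N + 1) ^ (N + 2 + N)) →
      mf f (D0 N * D1 N) (plm N 0 P * plm N 1 Q * ∏ i ∈ JJ N, plm N i (B i)) =
        γ (plm N 0 (P * Q) * ∏ i ∈ JJ N, plm N i (B i)))
    {F : MvPolynomial (Fin (N + 1)) ℂ} (hF : F ∈ linS (N + 1) ^ (N + 2))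
    (B : Fin (N + 2) → MvPolynomial (Fin (N + 1)) ℂ)
    (hB : ∀ i ∈ JJ N, B i ∈ linS (N + 1) ^ N) (H : MvPolynomial (Fin (N + 1)) ℂ)
    (hH : H ∈ linS (N + 1) ^ ((N + 1) + (N + 1))) :
    2 * γ (plm N 0 (H * (F * F)) * ∏ i ∈ JJ N, plm N i (B i * F)) +
      f (D0 N * (D0 N * (plm N 0 (F * F) * plm N 1 H *
        ∏ i ∈ JJ N, plm N i (B i * F)))) = 0 := by
  have hm : ∀ {s t : ℕ} {X Y : MvPolynomial (Fin (N + 1)) ℂ}, X ∈ linS (N + 1) ^ s →
      Y ∈ linS (N + 1) ^ t → X * Y ∈ linS (N + 1) ^ (s + t) := by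
    intro s t X Y hX hY
    rw [pow_add]; exact Submodule.mul_mem_mul hX hY
  let T : MvPolynomial (Fin (N + 1)) ℂ →ₗ[ℂ] ℂ :=
    (2 : ℂ) • (γ ∘ₗ LinearMap.mulRight ℂ (∏ i ∈ JJ N, plm N i (B i * F)) ∘ₗ
      (plm N 0).toLinearMap ∘ₗ LinearMap.mulRight ℂ (F * F)) +
    (f ∘ₗ LinearMap.mulLeft ℂ (D0 N) ∘ₗ LinearMap.mulLeft ℂ (D0 N) ∘ₗ
      LinearMap.mulRight ℂ (∏ i ∈ JJ N, plm N i (B i * F)) ∘ₗ
      LinearMap.mulLeft ℂ (plm N 0 (F * F)) ∘ₗ (plm N 1).toLinearMap)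
  have hT : ∀ H, T H = 2 * γ (plm N 0 (H * (F * F)) * ∏ i ∈ JJ N, plm N i (B i * F)) +
      f (D0 N * (D0 N * (plm N 0 (F * F) * plm N 1 H *
        ∏ i ∈ JJ N, plm N i (B i * F)))) := fun H => rfl
  rw [← hT]
  apply span_mul T _ H hH
  intro B1 hB1 G hG
  rw [hT]
  have h1 := stepR hs hk hF hG hB1 (fun j => B j.succ.succ) (fun j => hB _ (mem_JJ j))
  have hFG : F * G ∈ linS (N + 1) ^ (N + 2 + N + 1) := by
    have h2 := hm hF hG
    have h3 : N + 2 + (N + 1) = N + 2 + N + 1 := by omega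
    rwa [h3] at h2
  have hBF : B1 * F ∈ linS (N + 1) ^ (N + 2 + N + 1) := by
    have h2 := hm hB1 hF
    have h3 : N + 1 + (N + 2) = N + 2 + N + 1 := by omega
    rwa [h3] at h2
  have h2 := hγ (F * G) hFG (B1 * F) hBF (fun i => B i * F) (by
    intro i hi
    have h2 := hm (hB i hi) hF
    have h3 : N + (N + 2) = N + 2 + N := by omega
    rwa [h3] at h2)
  have e1 : B1 * G * (F * F) = F * G * (B1 * F) := by ring
  rw [e1, ← h2, mf_apply, prod_JJ, mul_assoc (D0 N) (D1 N)]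
  exact h1

/-- The functional `f · D0 · D1` vanishes on products of forms. -/
lemma stepE (hN : 2 ≤ N)
    (hs : ∀ (σ : Equiv.Perm (Fin (N + 2))) M, f (rename (Prod.map σ id) M) = f M)
    (hk : ∀ F ∈ linS (N + 1) ^ (N + 2), f (∏ i, rename (Prod.mk i) (F * F)) = 0)
    {P Q : MvPolynomial (Fin (N + 1)) ℂ} (hP : P ∈ linS (N + 1) ^ (N + 2 + N + 1))
    (hQ : Q ∈ linS (N + 1) ^ (N + 2 + N + 1)) (B : Fin (N + 2) → MvPolynomial (Fin (N + 1)) ℂ)
    (hB : ∀ i ∈ JJ N, B i ∈ linS (N + 1) ^ (N + 2 + N)) :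
    mf f (D0 N * D1 N) (plm N 0 P * plm N 1 Q * ∏ i ∈ JJ N, plm N i (B i)) = 0 := by
  have h01 : (0 : Fin (N + 2)) ≠ 1 := by
    intro h; have := congrArg Fin.val h; simp at this
  obtain ⟨γ, hγ⟩ := H563.mergeH (ι := Fin (N + 2)) (N + 1) 0 1 h01 (JJ N) zero_notMem_JJ
    (fun _ => N + 2 + N) (N + 2 + N) (N + 2 + N) (mf f (D0 N * D1 N)) (by
      intro u hu v hv P hP Q hQ B hB
      have h1 := stepC hN hs hk hu hv (Fin.cons P (Fin.cons Q (fun j : Fin N => B j.succ.succ))) (by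
        intro i
        refine Fin.cases ?_ (fun i => ?_) i
        · exact hP
        · refine Fin.cases ?_ (fun i => ?_) i
          · exact hQ
          · exact hB _ (mem_JJ i))
      rw [mf_apply, ← mul_assoc, ← h1, prod_split, prod_JJ]
      rfl)
  have hm : ∀ {s t : ℕ} {X Y : MvPolynomial (Fin (N + 1)) ℂ}, X ∈ linS (N + 1) ^ s →
      Y ∈ linS (N + 1) ^ t → X * Y ∈ linS (N + 1) ^ (s + t) := by
    intro s t X Y hX hY
    rw [pow_add]; exact Submodule.mul_mem_mul hX hY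
  have hfam : ∀ F ∈ linS (N + 1) ^ (N + 2), ∀ C ∈ linS (N + 1) ^ N,
      ∀ B : Fin (N + 2) → MvPolynomial (Fin (N + 1)) ℂ,
      (∀ i ∈ JJ N, B i ∈ linS (N + 1) ^ N) →
      γ (plm N 0 (C * F ^ 3) * ∏ i ∈ JJ N, plm N i (B i * F)) = 0 := by
    intro F hF C hC B hB
    have h1 := stepG hs hk γ hγ hF B hB (C * F) (by
      have h2 := hm hC hF
      have h3 : N + (N + 2) = N + 1 + (N + 1) := by omega
      rwa [h3] at h2)
    have h2 := stepD hs hk hF hC (fun j => B j.succ.succ) (fun j => hB _ (mem_JJ j))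
    rw [prod_JJ (fun i => plm N i (B i * F)), h2, add_zero] at h1
    have h3 := (mul_eq_zero.1 h1).resolve_left two_ne_zero
    have e1 : C * F ^ 3 = C * F * (F * F) := by ring
    rw [e1, prod_JJ (fun i => plm N i (B i * F)), h3]
  have hkp := Kp (pl := plm N) (L := linS (N + 1)) (I := JJ N) (p := 0) (e := 3) (β := N)
    (b' := N) (a := N + 2) γ (fun F hF C hC B hB => hfam F hF C hC B hB) (by rw [card_JJ]; omega)
    (by rw [card_JJ])
  have h1 := hγ P hP Q hQ B hB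
  have h2 := hkp (P * Q) (by
    have h2 := hm hP hQ
    have h3 : N + 2 + N + 1 + (N + 2 + N + 1) = N + 3 * (N + 2) := by ring
    rwa [h3] at h2) B (by
    intro i hi
    have h2 := hB i hi
    have h3 : N + 2 + N = N + (N + 2) := by omega
    rwa [h3] at h2)
  exact h1.trans h2

end

end Vale.Agent.P181.H241
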