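import Vale.Agent.P181.H241.Fin

set_option autoImplicit false

/-! The functional `f · D0 · D1` is zero. -/

namespace Vale.Agent.P181.H241

open Vale.Agent.P181 Vale.Agent.P181.H280 Finset MvPolynomial

variable {N : ℕ}

lemma deg_inj {pt : Fin (N + 1) → Fin (N + 2)} (h : Function.Injective pt) (i : Fin (N + 2)) :
    (∑ t, Pi.single (pt t) 1 : Fin (N + 2) → ℕ) i = if i ∈ Set.range pt then 1 else 0 := by
  classical
  rw [Finset.sum_apply]
  by_cases hi : i ∈ Set.range pt
  · obtain ⟨s, rfl⟩ := hi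
    rw [if_pos ⟨s, rfl⟩, Finset.sum_eq_single s]
    · simp
    · intro t _ ht
      rw [Pi.single_eq_of_ne]
      intro h1
      exact ht (h h1).symm
    · intro h1
      exact absurd (Finset.mem_univ s) h1
  · rw [if_neg hi]
    apply Finset.sum_eq_zero
    intro t _
    rw [Pi.single_eq_of_ne]
    intro h1
    exact hi ⟨t, h1.symm⟩

lemma range_p1 (i : Fin (N + 2)) (hi : i ≠ 1) : i ∈ Set.range (p1 N) := by
  refine Fin.cases ?_ (fun i => ?_) i hi
  · intro _
    exact ⟨0, rfl⟩
  · refine Fin.cases ?_ (fun j => ?_) i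
    · intro h
      exact absurd rfl h
    · intro _
      refine ⟨j.succ, ?_⟩
      rw [p1, Fin.cons_succ]

section

variable {f : MvPolynomial (Fin (N + 2) × Fin (N + 1)) ℂ →ₗ[ℂ] ℂ}

/-- The functional `f · D0 · D1` is zero. -/
lemma stepF (hN : 2 ≤ N)
    (hs : ∀ (σ : Equiv.Perm (Fin (N + 2))) M, f (rename (Prod.map σ id) M) = f M)
    (hS : Supp f (fun _ => 2 * (N + 2)))
    (hk : ∀ F ∈ linS (N + 1) ^ (N + 2), f (∏ i, rename (Prod.mk i) (F * F)) = 0) :
    mf f (D0 N * D1 N) = 0 := by
  classical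
  have h01 : (0 : Fin (N + 2)) ≠ 1 := by
    intro h; have := congrArg Fin.val h; simp at this
  have h1 : IsWeightedHomogeneous (wt N) (D0 N * D1 N)
      ((∑ t, Pi.single (Fin.succ t) 1) + ∑ t, Pi.single (p1 N t) 1) :=
    (Dt_homog Fin.succ).mul (Dt_homog (p1 N))
  have h2 : Supp (mf f (D0 N * D1 N))
      (Fin.cons (N + 2 + N + 1) (Fin.cons (N + 2 + N + 1) (fun _ => N + 2 + N))) := by
    apply hS.mf h1
    funext i
    rw [Pi.add_apply, Pi.add_apply, deg_inj (Fin.succ_injective _), deg_inj p1_inj]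
    refine Fin.cases ?_ (fun i => ?_) i
    · have e1 : (0 : Fin (N + 2)) ∉ Set.range (Fin.succ : Fin (N + 1) → Fin (N + 2)) := by
        rintro ⟨t, ht⟩
        exact Fin.succ_ne_zero _ ht
      rw [if_neg e1, if_pos (range_p1 0 h01), Fin.cons_zero]
      ring
    · rw [if_pos ⟨i, rfl⟩, Fin.cons_succ]
      refine Fin.cases ?_ (fun j => ?_) i
      · have e1 : (Fin.succ (0 : Fin (N + 1))) ∉ Set.range (p1 N) := by
          rintro ⟨t, ht⟩
          revert ht
          refine Fin.cases ?_ (fun j => ?_) t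
          · intro h
            exact h01 h
          · intro h
            rw [p1, Fin.cons_succ, Fin.succ_inj] at h
            exact Fin.succ_ne_zero _ h
        rw [if_neg e1, Fin.cons_zero]
        ring
      · have e1 : (Fin.succ (Fin.succ j) : Fin (N + 2)) ∈ Set.range (p1 N) := by
          apply range_p1
          intro h
          have h3 : (Fin.succ j : Fin (N + 1)) = 0 := Fin.succ_injective _ h
          exact Fin.succ_ne_zero _ h3
        rw [if_pos e1, Fin.cons_succ]
        ring
  apply van_to_zero h2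
  intro P hP
  have h3 := stepE hN hs hk (hP 0) (hP 1) P (by
    intro i hi
    obtain ⟨j, _, rfl⟩ := Finset.mem_map.1 hi
    exact hP j.succ.succ)
  rw [prod_JJ] at h3
  rw [prod_split]
  exact h3

end

end Vale.Agent.P181.H241
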