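import Vale.Agent.P181.H280.Main
import Vale.Agent.P181.H414.Cap

set_option autoImplicit false

/-! Functionals attached to symmetric multilinear forms. -/

namespace Vale.Agent.P181.H241

open Vale.Agent.P181 Vale.Agent.P181.H280 Vale.Agent.P181.H414 Finset MvPolynomial

variable {a m : ℕ}

/-- The exponent of the row `i`. -/
noncomputable def rw (d : (Fin a × Fin m) →₀ ℕ) (i : Fin a) : Fin m →₀ ℕ :=
  Finsupp.equivFunOnFinite.symm (fun k => d (i, k))

lemma rw_apply (d : (Fin a × Fin m) →₀ ℕ) (i : Fin a) (k : Fin m) : rw d i k = d (i, k) := rfl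

/-- Assemble the rows. -/
noncomputable def asm (e : Fin a → (Fin m →₀ ℕ)) : (Fin a × Fin m) →₀ ℕ :=
  Finsupp.equivFunOnFinite.symm (fun p => e p.1 p.2)

lemma asm_apply (e : Fin a → (Fin m →₀ ℕ)) (p : Fin a × Fin m) : asm e p = e p.1 p.2 := rfl

lemma rw_asm (e : Fin a → (Fin m →₀ ℕ)) (i : Fin a) : rw (asm e) i = e i := by
  ext k; rfl

lemma asm_rw (d : (Fin a × Fin m) →₀ ℕ) : asm (rw d) = d := by
  ext p; rfl

lemma mon_prod (d : (Fin a × Fin m) →₀ ℕ) :
    (monomial d 1 : MvPolynomial (Fin a × Fin m) ℂ) =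
      ∏ i, rename (Prod.mk i) (monomial (rw d i) 1) := by
  rw [monomial_eq, C_1, one_mul, Finsupp.prod_fintype _ _ (by simp), Fintype.prod_prod_type]
  apply Finset.prod_congr rfl
  intro i _
  rw [monomial_eq, C_1, one_mul, Finsupp.prod_fintype _ _ (by simp), map_prod]
  apply Finset.prod_congr rfl
  intro k _
  simp [rw_apply]

/-- The functional attached to a multilinear form in degree `b`. -/
noncomputable def ofForm (b : ℕ) (Φ : MultilinearMap ℂ (fun _ : Fin a => MvPolynomial (Fin m) ℂ) ℂ) :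
    MvPolynomial (Fin a × Fin m) ℂ →ₗ[ℂ] ℂ :=
  open Classical in
  (MvPolynomial.basisMonomials (Fin a × Fin m) ℂ).constr ℂ
    (fun d => if ∀ i, ∑ k, d (i, k) = b then Φ (fun i => monomial (rw d i) 1) else 0)

lemma ofForm_pos {b : ℕ} {Φ : MultilinearMap ℂ (fun _ : Fin a => MvPolynomial (Fin m) ℂ) ℂ}
    {d : (Fin a × Fin m) →₀ ℕ} (h : ∀ i, ∑ k, d (i, k) = b) :
    ofForm b Φ (monomial d 1) = Φ (fun i => monomial (rw d i) 1) := by
  classical
  have h1 : (monomial d 1 : MvPolynomial (Fin a × Fin m) ℂ) =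
      MvPolynomial.basisMonomials (Fin a × Fin m) ℂ d := by rw [coe_basisMonomials]
  rw [ofForm, h1, Module.Basis.constr_basis, if_pos h]

lemma ofForm_neg {b : ℕ} {Φ : MultilinearMap ℂ (fun _ : Fin a => MvPolynomial (Fin m) ℂ) ℂ}
    {d : (Fin a × Fin m) →₀ ℕ} (h : ¬ ∀ i, ∑ k, d (i, k) = b) :
    ofForm b Φ (monomial d 1) = 0 := by
  classical
  have h1 : (monomial d 1 : MvPolynomial (Fin a × Fin m) ℂ) =
      MvPolynomial.basisMonomials (Fin a × Fin m) ℂ d := by rw [coe_basisMonomials]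
  rw [ofForm, h1, Module.Basis.constr_basis, if_neg h]

lemma prodX {b : ℕ} (c : Fin b → Fin m) : (∏ j, X (c j) : MvPolynomial (Fin m) ℂ) =
    monomial (∑ j, Finsupp.single (c j) 1) 1 := by
  rw [monomial_sum_one]
  rfl

lemma degX {b : ℕ} (c : Fin b → Fin m) :
    ∑ k, (∑ j, Finsupp.single (c j) 1 : Fin m →₀ ℕ) k = b := by
  have h1 : ∀ k, (∑ j, Finsupp.single (c j) 1 : Fin m →₀ ℕ) k =
      ∑ j, (Finsupp.single (c j) 1 : Fin m →₀ ℕ) k := fun k => Finsupp.finsetSum_apply _ _ _
  rw [Finset.sum_congr rfl (fun k _ => h1 k), Finset.sum_comm]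
  have h2 : ∀ j, ∑ k, (Finsupp.single (c j) 1 : Fin m →₀ ℕ) k = 1 := by
    intro j
    rw [Finset.sum_eq_single (c j)]
    · simp
    · intro k _ hk
      rw [Finsupp.single_apply, if_neg (Ne.symm hk)]
    · intro h; exact absurd (Finset.mem_univ _) h
  rw [Finset.sum_congr rfl (fun j _ => h2 j)]
  simp

lemma ofForm_prod {b : ℕ} (Φ : MultilinearMap ℂ (fun _ : Fin a => MvPolynomial (Fin m) ℂ) ℂ)
    (P : Fin a → MvPolynomial (Fin m) ℂ) (hP : ∀ i, P i ∈ linS m ^ b) :
    ofForm b Φ (∏ i, rename (Prod.mk i) (P i)) = Φ P := by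
  let Ψ : MultilinearMap ℂ (fun _ : Fin a => MvPolynomial (Fin m) ℂ) ℂ :=
    (ofForm b Φ).compMultilinearMap
      ((MultilinearMap.mkPiAlgebra ℂ (Fin a) (MvPolynomial (Fin a × Fin m) ℂ)).compLinearMap
        (fun i => (rename (Prod.mk i) : MvPolynomial (Fin m) ℂ →ₐ[ℂ]
          MvPolynomial (Fin a × Fin m) ℂ).toLinearMap)) - Φ
  have hΨ : ∀ P, Ψ P = ofForm b Φ (∏ i, rename (Prod.mk i) (P i)) - Φ P := fun P => rfl
  have h1 : Ψ P = 0 := by
    apply multilinear_zero_of_span Ψ
      (Set.range (fun c : Fin b → Fin m => ∏ j, (X (c j) : MvPolynomial (Fin m) ℂ)))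
    · intro w hw
      choose c hc using hw
      rw [hΨ, sub_eq_zero]
      have hw' : w = fun i => monomial (∑ j, Finsupp.single (c i j) 1) 1 := by
        funext i
        rw [← hc i]
        exact prodX (c i)
      have h2 := mon_prod (asm (fun i => ∑ j, Finsupp.single (c i j) 1))
      simp only [rw_asm] at h2
      rw [hw', ← h2, ofForm_pos]
      · simp only [rw_asm]
      · intro i
        exact degX (c i)
    · intro i
      exact span_pow_eq _ _ (hP i)
  rw [hΨ, sub_eq_zero] at h1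
  exact h1

lemma mono_mem' (d : Fin m →₀ ℕ) {b : ℕ} (h : ∑ k, d k = b) :
    (monomial d 1 : MvPolynomial (Fin m) ℂ) ∈ linS m ^ b := by
  rw [monomial_eq, C_1, one_mul, Finsupp.prod_fintype _ _ (by simp), ← h]
  have h : ∀ S : Finset (Fin m), (∏ k ∈ S, (X k : MvPolynomial (Fin m) ℂ) ^ d k) ∈
      linS m ^ (∑ k ∈ S, d k) := by
    intro S
    induction S using Finset.induction_on with
    | empty =>
      rw [Finset.prod_empty, Finset.sum_empty, pow_zero]
      exact Submodule.one_le.1 le_rfl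
    | insert k S hk ih =>
      rw [Finset.prod_insert hk, Finset.sum_insert hk, pow_add]
      exact Submodule.mul_mem_mul (Submodule.pow_mem_pow _ (X_mem_linS k) _) ih
  exact h Finset.univ

lemma mon_ext {f g : MvPolynomial (Fin a × Fin m) ℂ →ₗ[ℂ] ℂ}
    (h : ∀ d, f (monomial d 1) = g (monomial d 1)) : f = g := by
  apply (MvPolynomial.basisMonomials _ ℂ).ext
  intro d
  rw [coe_basisMonomials]
  exact h d

lemma ofForm_symm {b : ℕ} (Φ : MultilinearMap ℂ (fun _ : Fin a => MvPolynomial (Fin m) ℂ) ℂ)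
    (hΦ : IsSymm Φ) (σ : Equiv.Perm (Fin a)) (M : MvPolynomial (Fin a × Fin m) ℂ) :
    ofForm b Φ (rename (fun p => (σ p.1, p.2)) M) = ofForm b Φ M := by
  have h1 : ofForm b Φ ∘ₗ (rename (fun p : Fin a × Fin m => (σ p.1, p.2)) :
      MvPolynomial (Fin a × Fin m) ℂ →ₐ[ℂ] MvPolynomial (Fin a × Fin m) ℂ).toLinearMap =
      ofForm b Φ := by
    apply mon_ext
    intro d
    rw [LinearMap.comp_apply, AlgHom.toLinearMap_apply]
    have hinj : Function.Injective (fun p : Fin a × Fin m => (σ p.1, p.2)) := by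
      rintro ⟨i, k⟩ ⟨j, l⟩ h
      simp only [Prod.mk.injEq, EmbeddingLike.apply_eq_iff_eq] at h
      exact Prod.ext h.1 h.2
    by_cases hd : ∀ i, ∑ k, d (i, k) = b
    · rw [ofForm_pos hd, mon_prod d, map_prod]
      have h2 : ∀ i, rename (fun p : Fin a × Fin m => (σ p.1, p.2))
          (rename (Prod.mk i) (monomial (rw d i) 1 : MvPolynomial (Fin m) ℂ)) =
          rename (Prod.mk (σ i)) (monomial (rw d (σ.symm (σ i))) 1) := by
        intro i
        rw [rename_rename, Equiv.symm_apply_apply]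
        rfl
      rw [Finset.prod_congr rfl (fun i _ => h2 i),
        Equiv.prod_comp σ (fun i => rename (Prod.mk i) (monomial (rw d (σ.symm i)) (1 : ℂ))),
        ofForm_prod Φ (fun i => monomial (rw d (σ.symm i)) 1)
          (fun i => mono_mem' _ (hd (σ.symm i)))]
      exact hΦ σ.symm (fun i => monomial (rw d i) 1)
    · rw [ofForm_neg hd, rename_monomial, ofForm_neg]
      intro h2
      apply hd
      intro i
      rw [← h2 (σ i)]
      apply Finset.sum_congr rfl
      intro k _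
      exact (Finsupp.mapDomain_apply hinj d (i, k)).symm
  exact LinearMap.congr_fun h1 M

lemma rowsum_ne {b : ℕ} {d : (Fin a × Fin m) →₀ ℕ} (h : ¬ ∀ i, ∑ k, d (i, k) = b)
    (r : Fin a) (k0 m0 : Fin m) (hd : d (r, m0) ≠ 0) :
    ¬ ∀ i, ∑ k, (Finsupp.single (r, k0) 1 + (d - Finsupp.single (r, m0) 1) :
      (Fin a × Fin m) →₀ ℕ) (i, k) = b := by
  intro h1
  apply h
  intro i
  rw [← h1 i]
  have h2 : ∀ k, (Finsupp.single (r, k0) 1 + (d - Finsupp.single (r, m0) 1) :
      (Fin a × Fin m) →₀ ℕ) (i, k) = (if (r, k0) = (i, k) then 1 else 0) +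
        (d (i, k) - (if (r, m0) = (i, k) then 1 else 0)) := by
    intro k
    rw [Finsupp.add_apply, Finsupp.tsub_apply, Finsupp.single_apply, Finsupp.single_apply]
  rw [Finset.sum_congr rfl (fun k _ => h2 k), Finset.sum_add_distrib]
  by_cases hi : r = i
  · subst hi
    simp only [Prod.mk.injEq, true_and]
    rw [Finset.sum_ite_eq]
    simp only [Finset.mem_univ, if_true]
    have h3 : ∑ k, d (r, k) = d (r, m0) + ∑ k ∈ Finset.univ.erase m0, d (r, k) :=
      (Finset.add_sum_erase _ _ (Finset.mem_univ m0)).symm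
    have h4 : ∑ k, (d (r, k) - if m0 = k then 1 else 0) =
        (d (r, m0) - 1) + ∑ k ∈ Finset.univ.erase m0, d (r, k) := by
      rw [← Finset.add_sum_erase _ _ (Finset.mem_univ m0), if_pos rfl]
      congr 1
      apply Finset.sum_congr rfl
      intro k hk
      rw [if_neg (Finset.ne_of_mem_erase hk).symm, Nat.sub_zero]
    rw [h3, h4]
    omega
  · have h3 : ∀ k k', ((r, k') : Fin a × Fin m) ≠ (i, k) := fun k k' h => hi (congrArg Prod.fst h)
    have h4 : ∀ k, (if ((r, k0) : Fin a × Fin m) = (i, k) then 1 else 0 : ℕ) = 0 :=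
      fun k => if_neg (h3 k k0)
    have h5 : ∀ k, (d (i, k) - if ((r, m0) : Fin a × Fin m) = (i, k) then 1 else 0 : ℕ) =
        d (i, k) := fun k => by rw [if_neg (h3 k m0), Nat.sub_zero]
    rw [Finset.sum_congr rfl (fun k _ => h4 k), Finset.sum_congr rfl (fun k _ => h5 k)]
    simp

/-- Derivations that kill constants off one row. -/
lemma pol_rename (k0 m0 : Fin m) (i : Fin a) (P : MvPolynomial (Fin m) ℂ) :
    pol k0 m0 (rename (Prod.mk i) P : MvPolynomial (Fin a × Fin m) ℂ) =
      rename (Prod.mk i) (X k0 * pderiv m0 P) := by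
  induction P using MvPolynomial.induction_on with
  | C c =>
    rw [rename_C, pderiv_C, mul_zero, map_zero]
    exact Derivation.map_algebraMap _ c
  | add p q hp hq => rw [map_add, map_add, hp, hq, map_add, mul_add, map_add]
  | mul_X p j hp =>
    rw [map_mul, rename_X, Derivation.leibniz, hp, pol_X, Derivation.leibniz, pderiv_X,
      smul_eq_mul, smul_eq_mul, smul_eq_mul, smul_eq_mul]
    by_cases hj : j = m0
    · subst hj
      simp only [if_true, Pi.single_eq_same, map_mul, map_add, rename_X, map_one]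
      ring
    · rw [if_neg hj, Pi.single_eq_of_ne hj]
      simp only [map_mul, map_add, rename_X, map_zero]
      ring

lemma pol_prod (k0 m0 : Fin m) (P : Fin a → MvPolynomial (Fin m) ℂ) :
    pol k0 m0 (∏ i, rename (Prod.mk i) (P i) : MvPolynomial (Fin a × Fin m) ℂ) =
      ∑ s, ∏ i, rename (Prod.mk i) (Function.update P s (X k0 * pderiv m0 (P s)) i) := by
  rw [deriv_prod]
  apply Finset.sum_congr rfl
  intro s _
  apply Finset.prod_congr rfl
  intro i _
  by_cases hi : i = s
  · subst hi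
    rw [Function.update_self, Function.update_self, pol_rename]
  · rw [Function.update_of_ne hi, Function.update_of_ne hi]

lemma ofForm_pol {b : ℕ} (Φ : MultilinearMap ℂ (fun _ : Fin a => MvPolynomial (Fin m) ℂ) ℂ)
    (k0 m0 : Fin m) (c : ℂ) (hΦ : ∀ P : Fin a → MvPolynomial (Fin m) ℂ,
      (∀ i, P i ∈ linS m ^ (b + 1)) →
      ∑ i, Φ (Function.update P i (X k0 * pderiv m0 (P i))) = c * Φ P)
    (M : MvPolynomial (Fin a × Fin m) ℂ) :
    ofForm (b + 1) Φ (pol k0 m0 M) = c * ofForm (b + 1) Φ M := by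
  have h1 : ofForm (b + 1) Φ ∘ₗ (pol k0 m0 : Derivation ℂ (MvPolynomial (Fin a × Fin m) ℂ)
      (MvPolynomial (Fin a × Fin m) ℂ)).toLinearMap = c • ofForm (b + 1) Φ := by
    apply mon_ext
    intro d
    rw [LinearMap.comp_apply, LinearMap.smul_apply, smul_eq_mul]
    change ofForm (b + 1) Φ (pol k0 m0 (monomial d 1)) = _
    by_cases hd : ∀ i, ∑ k, d (i, k) = b + 1
    · rw [ofForm_pos hd, mon_prod d, pol_prod, map_sum]
      have hm : ∀ i, (monomial (rw d i) 1 : MvPolynomial (Fin m) ℂ) ∈ linS m ^ (b + 1) :=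
        fun i => mono_mem' _ (hd i)
      rw [← hΦ _ hm]
      apply Finset.sum_congr rfl
      intro s _
      apply ofForm_prod
      intro i
      by_cases hi : i = s
      · subst hi
        rw [Function.update_self]
        exact mul_mem_linS _ _ (pderiv_mem_linS _ _ (hm i))
      · rw [Function.update_of_ne hi]
        exact hm i
    · rw [ofForm_neg hd, mul_zero, pol_eq_sum, map_sum]
      apply Finset.sum_eq_zero
      intro r _
      rw [pderiv_monomial, one_mul]
      by_cases hz : d (r, m0) = 0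
      · rw [hz, Nat.cast_zero, monomial_zero, mul_zero, map_zero]
      · have h2 : (X (r, k0) * monomial (d - Finsupp.single (r, m0) 1) ((d (r, m0) : ℕ) : ℂ) :
            MvPolynomial (Fin a × Fin m) ℂ) = ((d (r, m0) : ℕ) : ℂ) •
              monomial (Finsupp.single (r, k0) 1 + (d - Finsupp.single (r, m0) 1)) 1 := by
          rw [X, monomial_mul, smul_monomial, one_mul, smul_eq_mul, mul_one]
        rw [h2, map_smul, ofForm_neg (rowsum_ne hd r k0 m0 hz), smul_zero]
  exact LinearMap.congr_fun h1 M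

end Vale.Agent.P181.H241
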