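import Vale.Agent.P181.H241.Abs

set_option autoImplicit false

/-! The commutative lemma in the form needed for stars. -/

namespace Vale.Agent.P181.H241

open Vale.Agent.P181 Finset

variable {ι : Type*}
variable {A R : Type*} [CommRing A] [Algebra ℂ A] [CommRing R] [Algebra ℂ R]
variable {pl : ι → A →ₐ[ℂ] R} {L : Submodule ℂ A}

/-- The multilinear map `P ↦ γ (∏ pl (pt i) (P i))`. -/
noncomputable def tupF (pl : ι → A →ₐ[ℂ] R) (γ : R →ₗ[ℂ] ℂ) {m : ℕ} (pt : Fin m → ι) :
    MultilinearMap ℂ (fun _ : Fin m => A) ℂ :=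
  γ.compMultilinearMap ((MultilinearMap.mkPiAlgebra ℂ (Fin m) R).compLinearMap
    (fun i => (pl (pt i)).toLinearMap))

lemma tupF_apply (γ : R →ₗ[ℂ] ℂ) {m : ℕ} (pt : Fin m → ι) (P : Fin m → A) :
    tupF pl γ pt P = γ (∏ i, pl (pt i) (P i)) := by
  simp only [tupF, LinearMap.compMultilinearMap_apply, MultilinearMap.compLinearMap_apply,
    MultilinearMap.mkPiAlgebra_apply, AlgHom.toLinearMap_apply]

theorem KL (γ : R →ₗ[ℂ] ℂ) {m : ℕ} (pt : Fin m → ι) (c κ : Fin m → ℕ)
    (hκ : ∀ j, ∑ i ∈ Finset.Iic j, κ i ≤ c j)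
    (h : ∀ ξ ∈ L, ∀ P : Fin m → A, (∀ i, P i ∈ L ^ (c i - κ i)) →
      γ (∏ i, pl (pt i) (ξ ^ κ i * P i)) = 0) :
    ∀ P : Fin m → A, (∀ i, P i ∈ L ^ c i) → γ (∏ i, pl (pt i) (P i)) = 0 := by
  intro P hP
  rw [← tupF_apply]
  refine claimA L (tupF pl γ pt) c κ hκ ?_ P hP
  intro ξ hξ P' hP'
  rw [tupF_apply]
  exact h ξ hξ P' hP'

theorem KA {m : ℕ} (pt : Fin m → ι) (b κ : Fin m → ℕ)
    (hκ : ∀ j, ∑ i ∈ Finset.Iic j, κ i ≤ b j + κ j) (a : ℕ) :
    ∀ γ : R →ₗ[ℂ] ℂ, (∀ F ∈ L ^ a, ∀ B : Fin m → A, (∀ i, B i ∈ L ^ b i) →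
      γ (∏ i, pl (pt i) (B i * F ^ κ i)) = 0) →
    ∀ P : Fin m → A, (∀ i, P i ∈ L ^ (b i + κ i * a)) → γ (∏ i, pl (pt i) (P i)) = 0 := by
  induction a with
  | zero =>
    intro γ h P hP
    have h1 : (1 : A) ∈ L ^ 0 := by rw [pow_zero]; exact Submodule.mem_one.2 ⟨1, map_one _⟩
    have h2 := h 1 h1 P (by simpa using hP)
    simpa using h2
  | succ a ih =>
    intro γ h
    apply KL (pl := pl) (L := L) γ pt (fun i => b i + κ i * (a + 1)) κ
    · intro j
      have h1 := hκ j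
      have h2 : κ j ≤ κ j * (a + 1) := Nat.le_mul_of_pos_right _ (Nat.succ_pos a)
      omega
    · intro ξ hξ P hP
      have h1 : ∏ i, pl (pt i) (ξ ^ κ i * P i) =
          (∏ i, pl (pt i) (ξ ^ κ i)) * ∏ i, pl (pt i) (P i) := by
        rw [← Finset.prod_mul_distrib]
        apply Finset.prod_congr rfl
        intro i _
        rw [map_mul]
      rw [h1]
      have h2 := ih (mf γ (∏ i, pl (pt i) (ξ ^ κ i))) (by
        intro F hF B hB
        have h3 := h (ξ * F) (by rw [pow_succ']; exact Submodule.mul_mem_mul hξ hF) B hB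
        rw [mf_apply, ← h3, ← Finset.prod_mul_distrib]
        congr 1
        apply Finset.prod_congr rfl
        intro i _
        rw [← map_mul]
        congr 1
        rw [mul_pow]
        ring) P (by
        intro i
        have h3 : b i + κ i * (a + 1) - κ i = b i + κ i * a := by
          rw [mul_add, mul_one]; omega
        have h4 := hP i
        simp only [h3] at h4
        exact h4)
      rw [mf_apply] at h2
      exact h2

theorem Kp {I : Finset ι} {p : ι} {e β b' a : ℕ} (γ : R →ₗ[ℂ] ℂ)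
    (h : ∀ F ∈ L ^ a, ∀ C ∈ L ^ β, ∀ B : ι → A, (∀ i ∈ I, B i ∈ L ^ b') →
      γ (pl p (C * F ^ e) * ∏ i ∈ I, pl i (B i * F)) = 0)
    (h1 : I.card ≤ b' + 1) (h2 : I.card ≤ β) :
    ∀ C ∈ L ^ (β + e * a), ∀ B : ι → A, (∀ i ∈ I, B i ∈ L ^ (b' + a)) →
      γ (pl p C * ∏ i ∈ I, pl i (B i)) = 0 := by
  classical
  intro C hC B hB
  let m := I.card
  let en : Fin m ≃ I := I.equivFin.symm
  let pt : Fin (m + 1) → ι := Fin.snoc (fun s => ((en s : I) : ι)) p
  have hpt1 : ∀ s : Fin m, pt (Fin.castSucc s) = ((en s : I) : ι) := by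
    intro s; simp only [pt, Fin.snoc_castSucc]
  have hpt2 : pt (Fin.last m) = p := by simp only [pt, Fin.snoc_last]
  have hprod : ∀ Q : ι → R, ∏ s : Fin m, Q ((en s : I) : ι) = ∏ i ∈ I, Q i := by
    intro Q
    rw [Equiv.prod_comp en (fun x : I => Q (x : ι)), Finset.prod_coe_sort I Q]
  let b : Fin (m + 1) → ℕ := Fin.snoc (fun _ => b') β
  let κ : Fin (m + 1) → ℕ := Fin.snoc (fun _ => 1) e
  have hb1 : ∀ s : Fin m, b (Fin.castSucc s) = b' := by intro s; simp only [b, Fin.snoc_castSucc]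
  have hb2 : b (Fin.last m) = β := by simp only [b, Fin.snoc_last]
  have hκ1 : ∀ s : Fin m, κ (Fin.castSucc s) = 1 := by intro s; simp only [κ, Fin.snoc_castSucc]
  have hκ2 : κ (Fin.last m) = e := by simp only [κ, Fin.snoc_last]
  have hsum : ∑ i, κ i = m + e := by
    rw [Fin.sum_univ_castSucc, hκ2]
    simp only [hκ1]
    simp
  have hκ : ∀ j, ∑ i ∈ Finset.Iic j, κ i ≤ b j + κ j := by
    intro j
    refine Fin.lastCases ?_ (fun s => ?_) j
    · rw [hb2, hκ2]
      have h3 : ∑ i ∈ Finset.Iic (Fin.last m), κ i ≤ ∑ i, κ i :=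
        Finset.sum_le_univ_sum_of_nonneg (fun _ => Nat.zero_le _)
      have h4 : m ≤ β := h2
      omega
    · rw [hb1, hκ1]
      have h3 : ∑ i ∈ Finset.Iic (Fin.castSucc s), κ i ≤ ∑ s : Fin m, 1 := by
        have h5 : ∑ i ∈ Finset.Iic (Fin.castSucc s), κ i =
            ∑ i ∈ Finset.Iic (Fin.castSucc s), 1 := by
          apply Finset.sum_congr rfl
          intro i hi
          rw [Finset.mem_Iic] at hi
          have h6 : i ≠ Fin.last m := by
            intro h7
            rw [h7] at hi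
            exact absurd hi (not_le.2 (Fin.castSucc_lt_last s))
          obtain ⟨t, rfl⟩ := Fin.eq_castSucc_of_ne_last h6
          exact hκ1 t
        rw [h5, Finset.sum_const, Finset.sum_const, smul_eq_mul, smul_eq_mul, mul_one, mul_one,
          Finset.card_univ, Fintype.card_fin, Fin.card_Iic, Fin.val_castSucc]
        have := s.2
        omega
      have h4 : ∑ s : Fin m, 1 = m := by simp
      have h6 : m ≤ b' + 1 := h1
      omega
  have key := KA (pl := pl) (L := L) pt b κ hκ a γ (by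
    intro F hF B' hB'
    rw [Fin.prod_univ_castSucc, hpt2, hκ2]
    have h3 := h F hF (B' (Fin.last m)) (by rw [← hb2]; exact hB' _)
      (fun i => if hi : i ∈ I then B' (Fin.castSucc (en.symm ⟨i, hi⟩)) else 0) (by
        intro i hi
        simp only [hi, dif_pos]
        rw [← hb1 (en.symm ⟨i, hi⟩)]
        exact hB' _)
    rw [← h3, mul_comm]
    congr 2
    rw [← hprod]
    apply Finset.prod_congr rfl
    intro s _
    rw [hpt1, hκ1, pow_one, dif_pos (en s).2]
    congr 3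
    simp) (Fin.snoc (fun s => B (en s)) C) (by
    intro i
    refine Fin.lastCases ?_ (fun s => ?_) i
    · rw [hb2, hκ2, Fin.snoc_last]
      exact hC
    · rw [hb1, hκ1, Fin.snoc_castSucc, one_mul]
      exact hB _ (en s).2)
  rw [Fin.prod_univ_castSucc, hpt2, Fin.snoc_last, mul_comm] at key
  rw [← key]
  congr 2
  rw [← hprod]
  apply Finset.prod_congr rfl
  intro s _
  rw [hpt1, Fin.snoc_castSucc]

end Vale.Agent.P181.H241
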