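import Vale.Agent.P181.H241.Chain
import Vale.Agent.P181.H797.One
import Vale.Agent.P181.H414.Cap

set_option autoImplicit false

/-! Assembly. -/

namespace Vale.Agent.P181.H241

open Vale.Agent.P181 Vale.Agent.P181.H280 Finset MvPolynomial

variable {N : ℕ}

/-- Place a polynomial at the point `i`. -/
noncomputable abbrev plm (N : ℕ) (i : Fin (N + 2)) :
    MvPolynomial (Fin (N + 1)) ℂ →ₐ[ℂ] MvPolynomial (Fin (N + 2) × Fin (N + 1)) ℂ :=
  rename (Prod.mk i)

/-- The minor with the columns `pt`. -/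
noncomputable def Dt (pt : Fin (N + 1) → Fin (N + 2)) :
    MvPolynomial (Fin (N + 2) × Fin (N + 1)) ℂ :=
  Matrix.det (Matrix.of fun s t : Fin (N + 1) => X (pt t, s))

/-- The columns of the minor omitting the point `1`. -/
def p1 (N : ℕ) : Fin (N + 1) → Fin (N + 2) := Fin.cons 0 (fun t : Fin N => t.succ.succ)

/-! ### Minors -/

lemma ren_Dt (σ : Equiv.Perm (Fin (N + 2))) (pt : Fin (N + 1) → Fin (N + 2)) :
    rename (Prod.map σ id) (Dt pt) = Dt (σ ∘ pt) := by
  rw [Dt, AlgHom.map_det, Dt]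
  congr 1
  ext s t : 1
  simp [AlgHom.mapMatrix_apply, Matrix.map_apply]

lemma Dt_perm (pt : Fin (N + 1) → Fin (N + 2)) (ρ : Equiv.Perm (Fin (N + 1))) :
    Dt (pt ∘ ρ) = ((Equiv.Perm.sign ρ : ℤ) : MvPolynomial (Fin (N + 2) × Fin (N + 1)) ℂ) *
      Dt pt := by
  rw [Dt, Dt, ← Matrix.det_permute']
  rfl

lemma Dt_not_inj {pt : Fin (N + 1) → Fin (N + 2)} (h : ¬ Function.Injective pt) : Dt pt = 0 := by
  rw [Function.not_injective_iff] at h
  obtain ⟨s, t, hst, hne⟩ := h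
  apply Matrix.det_zero_of_column_eq hne
  intro k
  simp only [Matrix.of_apply, hst]

lemma Dt_same {pt pt' : Fin (N + 1) → Fin (N + 2)} (h' : Function.Injective pt') (hr : ∀ t, pt' t ∈ Set.range pt) :
    ∃ ε : ℤ, Dt pt' = (ε : MvPolynomial (Fin (N + 2) × Fin (N + 1)) ℂ) * Dt pt := by
  choose r hr using hr
  have hri : Function.Injective r := by
    intro s t hst
    apply h'
    rw [← hr, ← hr, hst]
  let ρ : Equiv.Perm (Fin (N + 1)) := Equiv.ofBijective r (Finite.injective_iff_bijective.1 hri)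
  refine ⟨(Equiv.Perm.sign ρ : ℤ), ?_⟩
  rw [← Dt_perm]
  congr 1
  funext t
  exact (hr t).symm

/-! ### Supports -/

/-- The weights. -/
def wt (N : ℕ) : Fin (N + 2) × Fin (N + 1) → (Fin (N + 2) → ℕ) := fun p => Pi.single p.1 1

/-- `φ` is supported on the multidegree `c`. -/
def Supp (φ : MvPolynomial (Fin (N + 2) × Fin (N + 1)) ℂ →ₗ[ℂ] ℂ) (c : Fin (N + 2) → ℕ) : Prop :=
  ∀ M e, IsWeightedHomogeneous (wt N) M e → e ≠ c → φ M = 0

lemma weight_apply' (d : (Fin (N + 2) × Fin (N + 1)) →₀ ℕ) (i : Fin (N + 2)) :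
    Finsupp.weight (wt N) d i = ∑ k, d (i, k) := by
  rw [Finsupp.weight_apply, Finsupp.sum_fintype _ _ (by simp), Finset.sum_apply,
    Fintype.sum_prod_type, Finset.sum_eq_single i]
  · apply Finset.sum_congr rfl
    intro k _
    simp [wt]
  · intro j _ hj
    apply Finset.sum_eq_zero
    intro k _
    simp [wt, hj.symm]
  · intro h
    exact absurd (Finset.mem_univ _) h

lemma Supp_of_monomial (φ : MvPolynomial (Fin (N + 2) × Fin (N + 1)) ℂ →ₗ[ℂ] ℂ)
    (c : Fin (N + 2) → ℕ) (h : ∀ d : (Fin (N + 2) × Fin (N + 1)) →₀ ℕ,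
      (¬ ∀ i, ∑ k, d (i, k) = c i) → φ (monomial d 1) = 0) : Supp φ c := by
  intro M e hM hec
  rw [M.as_sum, map_sum]
  apply Finset.sum_eq_zero
  intro d hd
  have h1 : Finsupp.weight (wt N) d = e := hM (mem_support_iff.1 hd)
  have h2 : (monomial d (coeff d M) : MvPolynomial (Fin (N + 2) × Fin (N + 1)) ℂ) =
      (coeff d M) • monomial d 1 := by
    rw [smul_monomial, smul_eq_mul, mul_one]
  rw [h2, map_smul, h, smul_zero]
  intro h3
  apply hec
  rw [← h1]
  funext i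
  rw [weight_apply', h3 i]

lemma Supp.mf {φ : MvPolynomial (Fin (N + 2) × Fin (N + 1)) ℂ →ₗ[ℂ] ℂ} {c c' e : Fin (N + 2) → ℕ}
    (h : Supp φ c) {Θ : MvPolynomial (Fin (N + 2) × Fin (N + 1)) ℂ}
    (hΘ : IsWeightedHomogeneous (wt N) Θ e) (hc : e + c' = c) : Supp (mf φ Θ) c' := by
  intro M e' hM he'
  rw [mf_apply]
  apply h _ _ (hΘ.mul hM)
  rw [← hc]
  intro h1
  exact he' (add_left_cancel h1)

lemma X_homog (p : Fin (N + 2) × Fin (N + 1)) :
    IsWeightedHomogeneous (wt N) (X p : MvPolynomial (Fin (N + 2) × Fin (N + 1)) ℂ)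
      (Pi.single p.1 1) := isWeightedHomogeneous_X ℂ (wt N) p

lemma Dt_homog (pt : Fin (N + 1) → Fin (N + 2)) :
    IsWeightedHomogeneous (wt N) (Dt pt) (∑ t, Pi.single (pt t) 1) := by
  rw [Dt, Matrix.det_apply]
  apply Submodule.sum_mem (weightedHomogeneousSubmodule ℂ (wt N) (∑ t, Pi.single (pt t) 1))
  intro σ _
  have h1 : IsWeightedHomogeneous (wt N) (∏ i, (Matrix.of fun s t : Fin (N + 1) =>
      (X (pt t, s) : MvPolynomial (Fin (N + 2) × Fin (N + 1)) ℂ)) (σ i) i)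
      (∑ t, Pi.single (pt t) 1) := by
    apply IsWeightedHomogeneous.prod
    intro i _
    exact X_homog (pt i, σ i)
  rcases Int.units_eq_one_or (Equiv.Perm.sign σ) with h2 | h2
  · rw [h2, one_smul]
    exact h1
  · rw [h2, Units.neg_smul, one_smul]
    exact Submodule.neg_mem _ h1

lemma mono_mem {n : ℕ} (d : Fin n →₀ ℕ) :
    (monomial d 1 : MvPolynomial (Fin n) ℂ) ∈ linS n ^ (∑ k, d k) := by
  rw [monomial_eq, C_1, one_mul, Finsupp.prod_fintype _ _ (by simp)]
  have h : ∀ S : Finset (Fin n), (∏ k ∈ S, (X k : MvPolynomial (Fin n) ℂ) ^ d k) ∈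
      linS n ^ (∑ k ∈ S, d k) := by
    intro S
    induction S using Finset.induction_on with
    | empty =>
      rw [Finset.prod_empty, Finset.sum_empty]
      exact one_mem_pow_zero _
    | insert k S hk ih =>
      rw [Finset.prod_insert hk, Finset.sum_insert hk, pow_add]
      exact Submodule.mul_mem_mul (Submodule.pow_mem_pow _ (X_mem_linS k) _) ih
  exact h Finset.univ

lemma monomial_prod (d : (Fin (N + 2) × Fin (N + 1)) →₀ ℕ) :
    (monomial d 1 : MvPolynomial (Fin (N + 2) × Fin (N + 1)) ℂ) =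
      ∏ i, plm N i (monomial (Finsupp.equivFunOnFinite.symm (fun k => d (i, k))) 1) := by
  rw [monomial_eq, C_1, one_mul, Finsupp.prod_fintype _ _ (by simp), Fintype.prod_prod_type]
  apply Finset.prod_congr rfl
  intro i _
  rw [monomial_eq, C_1, one_mul, Finsupp.prod_fintype _ _ (by simp), map_prod]
  apply Finset.prod_congr rfl
  intro k _
  simp [plm]

lemma van_to_zero {φ : MvPolynomial (Fin (N + 2) × Fin (N + 1)) ℂ →ₗ[ℂ] ℂ} {c : Fin (N + 2) → ℕ}
    (h : Supp φ c) (hv : ∀ P : Fin (N + 2) → MvPolynomial (Fin (N + 1)) ℂ,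
      (∀ i, P i ∈ linS (N + 1) ^ c i) → φ (∏ i, plm N i (P i)) = 0) : φ = 0 := by
  apply (MvPolynomial.basisMonomials _ ℂ).ext
  intro d
  rw [coe_basisMonomials, LinearMap.zero_apply]
  change φ (monomial d 1) = 0
  by_cases hd : Finsupp.weight (wt N) d = c
  · rw [monomial_prod]
    apply hv
    intro i
    rw [← hd, weight_apply']
    exact mono_mem (Finsupp.equivFunOnFinite.symm (fun k => d (i, k)))
  · exact h _ _ (isWeightedHomogeneous_monomial (wt N) d 1 rfl) hd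

/-! ### Cramer -/

lemma cramer (k : Fin (N + 1)) :
    ∑ j : Fin (N + 2), (-1 : MvPolynomial (Fin (N + 2) × Fin (N + 1)) ℂ) ^ (j : ℕ) *
      X (j, k) * Dt (Fin.succAbove j) = 0 := by
  let B : Matrix (Fin (N + 2)) (Fin (N + 2)) (MvPolynomial (Fin (N + 2) × Fin (N + 1)) ℂ) :=
    Matrix.of (Fin.cons (fun j => X (j, k)) (fun s j => X (j, s)))
  have h1 : B.det = 0 := by
    apply Matrix.det_zero_of_row_eq (Fin.succ_ne_zero k).symm
    funext j
    simp only [B, Matrix.of_apply, Fin.cons_zero, Fin.cons_succ]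
  rw [Matrix.det_succ_row_zero] at h1
  rw [← h1]
  apply Finset.sum_congr rfl
  intro j _
  congr 1

end Vale.Agent.P181.H241
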