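import Vale.Agent.P181.H241.Thm
import Vale.Agent.P181.H241.Gb
import Vale.Agent.P181.H280.Final
import Vale.Agent.P181.H797.Ga
import Vale.Agent.P181.H563.Gc

set_option autoImplicit false

/-! Injectivity of the power map near the tall partitions. -/

namespace Vale.Agent.P181.H241

open Vale.Agent.P181 Vale.Agent.P181.H280 Vale.Agent.P181.H414 Finset MvPolynomial

open scoped TensorProduct

lemma ren_mem {m n b : ℕ} (h : m ≤ n) {P : MvPolynomial (Fin m) ℂ} (hP : P ∈ linS m ^ b) :
    rename (Fin.castLE h) P ∈ linS n ^ b := by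
  have h1 := span_pow_eq _ _ hP
  clear hP
  induction h1 using Submodule.span_induction with
  | mem x hx =>
    obtain ⟨c, rfl⟩ := hx
    simp only [map_prod, rename_X]
    exact prod_mem_pow _ _ (fun j => X_mem_linS _)
  | zero => rw [map_zero]; exact Submodule.zero_mem _
  | add x y _ _ hx hy => rw [map_add]; exact Submodule.add_mem _ hx hy
  | smul c x _ hx => rw [map_smul]; exact Submodule.smul_mem _ _ hx

lemma ren_pderiv {m n : ℕ} (h : m ≤ n) (k : Fin m) (P : MvPolynomial (Fin m) ℂ) :
    rename (Fin.castLE h) (pderiv k P) = pderiv (Fin.castLE h k) (rename (Fin.castLE h) P) := by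
  induction P using MvPolynomial.induction_on with
  | C c => simp
  | add p q hp hq => rw [map_add, map_add, hp, hq, map_add, map_add]
  | mul_X p j hp =>
    rw [Derivation.leibniz, map_mul, rename_X, Derivation.leibniz, map_add, smul_eq_mul,
      smul_eq_mul, smul_eq_mul, smul_eq_mul, map_mul, map_mul, hp, rename_X]
    congr 2
    by_cases hj : j = k
    · subst hj
      rw [pderiv_X_self, pderiv_X_self, map_one]
    · rw [pderiv_X_of_ne hj, pderiv_X_of_ne (fun h' => hj (Fin.castLE_injective h h')), map_zero]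

theorem glue {N n : ℕ} (hN : 2 ≤ N) (hn : N + 1 ≤ n) (lam : Fin n → ℕ)
    (h2 : ∀ i : Fin n, (i : ℕ) < N + 1 → 2 ≤ lam i)
    (h0 : ∀ i : Fin n, N + 1 ≤ (i : ℕ) → lam i = 0)
    (x : Sym[ℂ]^(N + 2) (Sym[ℂ]^(2 * (N + 2)) (Fin n → ℂ)))
    (hx : x ∈ hwSpace lam (plethAct (N + 2) (2 * (N + 2)) n))
    (hp : powMap (N + 2) 2 (Fin n → ℂ) x = 0) : x = 0 := by
  obtain ⟨l, rfl⟩ := exists_elOf x
  apply H563.gc hn l
  · rintro c ⟨i, j, hij⟩
    exact H797.hwZero lam l hx (c i j) (h0 _ hij) c i j rfl
  · intro P hP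
    let Φ : MultilinearMap ℂ (fun _ : Fin (N + 2) => MvPolynomial (Fin (N + 1)) ℂ) ℂ :=
      (formOf l).compLinearMap (fun _ => (rename (Fin.castLE hn) :
        MvPolynomial (Fin (N + 1)) ℂ →ₐ[ℂ] MvPolynomial (Fin n) ℂ).toLinearMap)
    have hΦ : ∀ P, Φ P = formOf l (fun i => rename (Fin.castLE hn) (P i)) := fun P => rfl
    have hsym : IsSymm Φ := fun σ P => formOf_symm l σ (fun i => rename (Fin.castLE hn) (P i))
    have hpol : ∀ m k : Fin (N + 1), m ≤ k → ∀ P : Fin (N + 2) → MvPolynomial (Fin (N + 1)) ℂ,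
        (∀ i, P i ∈ linS (N + 1) ^ (2 * (N + 2))) →
        ∑ i, Φ (Function.update P i (X k * pderiv m (P i))) =
          (if k = m then (lam (Fin.castLE hn m) : ℂ) else 0) * Φ P := by
      intro m k hmk P hP
      have h1 := H797.hwGen lam l hx (Fin.castLE hn m) (Fin.castLE hn k) hmk
        (fun i => rename (Fin.castLE hn) (P i)) (fun i => ren_mem hn (hP i))
      have h3 : (if Fin.castLE hn k = Fin.castLE hn m then (lam (Fin.castLE hn m) : ℂ) else 0) =
          (if k = m then (lam (Fin.castLE hn m) : ℂ) else 0) := by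
        by_cases hkm : k = m
        · rw [hkm, if_pos rfl, if_pos rfl]
        · rw [if_neg hkm, if_neg (fun h' => hkm (Fin.castLE_injective hn h'))]
      rw [h3] at h1
      rw [hΦ, ← h1]
      apply Finset.sum_congr rfl
      intro i _
      rw [hΦ]
      congr 1
      funext j
      by_cases hj : j = i
      · subst hj
        rw [Function.update_self, Function.update_self, map_mul, rename_X, ren_pderiv]
      · rw [Function.update_of_ne hj, Function.update_of_ne hj]
    have hf := main hN (ofForm (2 * (N + 2)) Φ) (fun k => lam (Fin.castLE hn k))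
      (fun σ M => ofForm_symm Φ hsym σ M) (fun d hd => ofForm_neg hd)
      (fun k => h2 _ k.2) (by
        intro m k hmk M
        have h1 := ofForm_pol (b := 2 * (N + 2) - 1) Φ k m 0 (by
          intro P hP
          have h3 := hpol m k hmk.le P hP
          rw [if_neg hmk.ne'] at h3
          exact h3) M
        rw [zero_mul] at h1
        exact h1) (by
        intro m M
        exact ofForm_pol (b := 2 * (N + 2) - 1) Φ m m _ (by
          intro P hP
          have h3 := hpol m m le_rfl P hP
          rw [if_pos rfl] at h3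
          exact h3) M) (by
        intro F hF
        have hFF : F * F ∈ linS (N + 1) ^ (2 * (N + 2)) := by
          rw [two_mul, pow_add]
          exact Submodule.mul_mem_mul hF hF
        have h1 := ofForm_prod Φ (fun _ => F * F) (fun _ => hFF)
        rw [h1, hΦ]
        have h3 := formOf_pow l hp (rename (Fin.castLE hn) F) (ren_mem hn hF)
        rw [← h3]
        congr 1
        funext i
        rw [map_mul, pow_two])
    rw [← hΦ, ← ofForm_prod Φ P hP, hf]
    rfl

theorem near {a n : ℕ} (ha : 4 ≤ a) (han : a ≤ n + 1) (lam : Fin n → ℕ) (hlam : Antitone lam)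
    (h : (∀ i : Fin n, (i : ℕ) < a - 1 → 2 ≤ lam i) ∨
      (a ≤ n ∧ ∀ i : Fin n, (i : ℕ) < a → 1 ≤ lam i))
    (x : Sym[ℂ]^a (Sym[ℂ]^(2 * a) (Fin n → ℂ)))
    (hx : x ∈ hwSpace lam (plethAct a (2 * a) n))
    (hp : powMap a 2 (Fin n → ℂ) x = 0) : x = 0 := by
  by_cases h1 : a ≤ n ∧ ∀ i : Fin n, (i : ℕ) < a → 1 ≤ lam i
  · exact powMap_injOn (by omega) (by omega) h1.1 lam (fun i hi => by
      have := h1.2 i hi
      omega) x hx hp
  · have h2 := h.resolve_right h1
    obtain ⟨N, rfl⟩ : ∃ N, a = N + 2 := ⟨a - 2, by omega⟩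
    have h3 : ∀ i : Fin n, (i : ℕ) < N + 1 → 2 ≤ lam i := fun i hi => h2 i (by omega)
    refine glue (by omega) (by omega) lam h3 ?_ x hx hp
    intro i hi
    by_contra h4
    apply h1
    refine ⟨by have := i.2; omega, fun j hj => ?_⟩
    have h5 : lam i ≤ lam j := hlam (by rw [Fin.le_def]; omega)
    omega

end Vale.Agent.P181.H241
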