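import Vale.Agent.P181.H241.Abs

set_option autoImplicit false

/-! Chains of brackets, two and three points. -/

namespace Vale.Agent.P181.H241

open Vale.Agent.P181 Finset

variable {ι : Type*} [DecidableEq ι]
variable {A R : Type*} [CommRing A] [Algebra ℂ A] [CommRing R] [Algebra ℂ R]
variable {pl : ι → A →ₐ[ℂ] R} {L : Submodule ℂ A} {a : ℕ} {φ : R →ₗ[ℂ] ℂ} {M : Finset ι}

lemma one_mem_pow_zero (L : Submodule ℂ A) : (1 : A) ∈ L ^ 0 := by
  rw [pow_zero]; exact Submodule.mem_one.2 ⟨1, map_one _⟩

/-- One step of the chain of brackets. -/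
theorem chain_step {p : ι} (hp : p ∈ M) (hM : 3 ≤ M.card) (hc : M.card ≤ a + 1)
    (h : Kil pl L a φ M (fun _ => M.card - 2)) (u v : ι → A)
    (hu : ∀ i, u i ∈ L) (hv : ∀ i, v i ∈ L) (C : A) (hC : C ∈ L ^ (a - 1)) :
    Kil pl L a (mf φ (pl p C * ∏ j ∈ M.erase p, br pl p j (u j) (v j))) (M.erase p)
      (fun _ => (M.erase p).card - 2) := by
  have hcard : (M.erase p).card = M.card - 1 := Finset.card_erase_of_mem hp
  intro F hF B hB
  have hset : M \ (M.erase p) = {p} := by
    ext i
    simp only [Finset.mem_sdiff, Finset.mem_erase, Finset.mem_singleton]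
    constructor
    · rintro ⟨h1, h2⟩
      by_contra h3
      exact h2 ⟨h3, h1⟩
    · rintro rfl
      exact ⟨hp, fun h => h.1 rfl⟩
  obtain ⟨s, hs⟩ : ∃ s, a = (M.erase p).card + s := ⟨a - (M.erase p).card, by omega⟩
  have hdeg : a - 1 = (M.card - 2) + s := by omega
  rw [hdeg] at hC
  let T : A →ₗ[ℂ] ℂ := φ ∘ₗ (LinearMap.mulLeft ℂ ((∏ j ∈ M.erase p, br pl p j (u j) (v j)) *
    ((∏ i ∈ M.erase p, pl i (B i)) * ∏ i ∈ M.erase p, pl i F))) ∘ₗ (pl p).toLinearMap
  have hT : ∀ X, T X = φ ((∏ j ∈ M.erase p, br pl p j (u j) (v j)) *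
    ((∏ i ∈ M.erase p, pl i (B i)) * ∏ i ∈ M.erase p, pl i F) * pl p X) := fun X => rfl
  have key : T C = 0 := by
    apply span_mul T _ C hC
    intro x hx y hy
    have h1 := h.exch (by intro i _; omega) u v hu hv hF (M.erase p) (Finset.erase_subset _ _) s hs
      y hy (Function.update B p x) (by
        intro i hi
        rw [Function.update_of_ne (Finset.ne_of_mem_erase hi)]
        have h2 := hB i hi
        simp only [hcard] at h2
        have h3 : M.card - 1 - 2 = M.card - 2 - 1 := by omega
        rw [h3] at h2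
        exact h2) (by
        intro i hi hi2
        have hip : i = p := by
          by_contra h3
          exact hi2 (Finset.mem_erase.2 ⟨h3, hi⟩)
        rw [hip, Function.update_self]
        exact hx)
    rw [hset, Finset.sum_singleton, Function.update_self] at h1
    rw [hT, ← h1]
    have h5 : ∏ i ∈ M.erase p, pl i (Function.update B p x i) = ∏ i ∈ M.erase p, pl i (B i) := by
      apply Finset.prod_congr rfl
      intro i hi
      rw [Function.update_of_ne (Finset.ne_of_mem_erase hi)]
    rw [h5]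
    congr 1
    ring
  rw [hT] at key
  rw [mf_apply, ← key]
  congr 1
  have h6 : ∏ i ∈ M.erase p, pl i (B i * F) =
      (∏ i ∈ M.erase p, pl i (B i)) * ∏ i ∈ M.erase p, pl i F := by
    rw [← Finset.prod_mul_distrib]
    apply Finset.prod_congr rfl
    intro i _
    rw [map_mul]
  rw [h6]
  ring

/-- Two points, no marks: the contents are alternating. -/
theorem two_points {x y : ι} (hxy : x ≠ y) (h : Kil pl L a φ {x, y} (fun _ => 0)) {F G : A}
    (hF : F ∈ L ^ a) (hG : G ∈ L ^ a) :
    φ (pl x G * pl y F) = - φ (pl x F * pl y G) := by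
  have h1 := h.first hF hG (fun _ => 1) (fun _ _ => one_mem_pow_zero L)
  rw [Finset.sum_pair hxy] at h1
  have h2 : ({x, y} : Finset ι).erase x = {y} := by
    ext i
    simp only [Finset.mem_erase, Finset.mem_insert, Finset.mem_singleton]
    constructor
    · rintro ⟨h3, h4 | h4⟩
      · exact absurd h4 h3
      · exact h4
    · rintro rfl
      exact ⟨hxy.symm, Or.inr rfl⟩
  have h3 : ({x, y} : Finset ι).erase y = {x} := by
    ext i
    simp only [Finset.mem_erase, Finset.mem_insert, Finset.mem_singleton]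
    constructor
    · rintro ⟨h3, h4 | h4⟩
      · exact h4
      · exact absurd h4 h3
    · rintro rfl
      exact ⟨hxy, Or.inl rfl⟩
  rw [h2, h3, Finset.prod_singleton, Finset.prod_singleton] at h1
  simp only [one_mul] at h1
  rw [mul_comm (pl y G)] at h1
  linear_combination h1

/-- The three by three minor. -/
def det3 (pl : ι → A →ₐ[ℂ] R) (i x y : ι) (u v w : A) : R :=
  pl i u * (pl x v * pl y w - pl x w * pl y v) - pl i v * (pl x u * pl y w - pl x w * pl y u) +
    pl i w * (pl x u * pl y v - pl x v * pl y u)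

/-- The relation on three points with marks of degree one. -/
def H3 (pl : ι → A →ₐ[ℂ] R) (L : Submodule ℂ A) (a : ℕ) (φ : R →ₗ[ℂ] ℂ) (i x y : ι) : Prop :=
  ∀ G ∈ L ^ a, ∀ H ∈ L ^ a, ∀ F ∈ L ^ a, ∀ b ∈ L, ∀ c ∈ L, ∀ d ∈ L,
    φ (pl i (b * G) * pl x (c * H) * pl y (d * F) + pl i (b * G) * pl x (c * F) * pl y (d * H) +
      pl i (b * H) * pl x (c * G) * pl y (d * F) + pl i (b * F) * pl x (c * G) * pl y (d * H) +
      pl i (b * H) * pl x (c * F) * pl y (d * G) + pl i (b * F) * pl x (c * H) * pl y (d * G)) = 0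

lemma H3.swap12 {i x y : ι} (h : H3 pl L a φ i x y) : H3 pl L a φ x i y := by
  intro G hG H hH F hF b hb c hc d hd
  rw [← h G hG H hH F hF c hc b hb d hd]
  congr 1
  ring

lemma H3.swap23 {i x y : ι} (h : H3 pl L a φ i x y) : H3 pl L a φ i y x := by
  intro G hG H hH F hF b hb c hc d hd
  rw [← h G hG H hH F hF b hb d hd c hc]
  congr 1
  ring

lemma H3_of_Kil {i x y : ι} (hix : i ≠ x) (hiy : i ≠ y) (hxy : x ≠ y)
    (h : Kil pl L a φ {i, x, y} (fun _ => 1)) : H3 pl L a φ i x y := by
  have key : ∀ G ∈ L ^ a, ∀ F ∈ L ^ a, ∀ b ∈ L, ∀ c ∈ L, ∀ d ∈ L,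
      φ (pl i (b * G) * pl x (c * F) * pl y (d * F) + pl i (b * F) * pl x (c * G) * pl y (d * F) +
        pl i (b * F) * pl x (c * F) * pl y (d * G)) = 0 := by
    intro G hG F hF b hb c hc d hd
    have h1 := first_order_prod φ {i, x, y}
      (Function.update (Function.update (fun _ => pl y (d * F)) x (pl x (c * F))) i (pl i (b * F)))
      (Function.update (Function.update (fun _ => pl y (d * G)) x (pl x (c * G))) i (pl i (b * G)))
      (by
        intro t
        have h2 := h (F + t • G) (Submodule.add_mem _ hF (Submodule.smul_mem _ _ hG))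
          (Function.update (Function.update (fun _ => d) x c) i b) (by
            intro j _
            rw [pow_one]
            by_cases hji : j = i
            · subst hji; rw [Function.update_self]; exact hb
            · rw [Function.update_of_ne hji]
              by_cases hjx : j = x
              · subst hjx; rw [Function.update_self]; exact hc
              · rw [Function.update_of_ne hjx]; exact hd)
        rw [← h2]
        congr 1
        apply Finset.prod_congr rfl
        intro j hj
        by_cases hji : j = i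
        · subst hji
          rw [Function.update_self, Function.update_self, Function.update_self, mul_add, map_add,
            mul_smul_comm, map_smul]
        · rw [Function.update_of_ne hji, Function.update_of_ne hji, Function.update_of_ne hji]
          by_cases hjx : j = x
          · subst hjx
            rw [Function.update_self, Function.update_self, Function.update_self, mul_add, map_add,
              mul_smul_comm, map_smul]
          · rw [Function.update_of_ne hjx, Function.update_of_ne hjx, Function.update_of_ne hjx]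
            have hjy : j = y := by
              simp only [Finset.mem_insert, Finset.mem_singleton] at hj
              tauto
            rw [hjy, mul_add, map_add, mul_smul_comm, map_smul])
    have e1 : ({i, x, y} : Finset ι).erase i = {x, y} := by
      ext j; simp only [Finset.mem_erase, Finset.mem_insert, Finset.mem_singleton]
      constructor
      · rintro ⟨h3, h4⟩; tauto
      · rintro (rfl | rfl)
        · exact ⟨hix.symm, by tauto⟩
        · exact ⟨hiy.symm, by tauto⟩
    have e2 : ({i, x, y} : Finset ι).erase x = {i, y} := by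
      ext j; simp only [Finset.mem_erase, Finset.mem_insert, Finset.mem_singleton]
      constructor
      · rintro ⟨h3, h4⟩; tauto
      · rintro (rfl | rfl)
        · exact ⟨hix, by tauto⟩
        · exact ⟨hxy.symm, by tauto⟩
    have e3 : ({i, x, y} : Finset ι).erase y = {i, x} := by
      ext j; simp only [Finset.mem_erase, Finset.mem_insert, Finset.mem_singleton]
      constructor
      · rintro ⟨h3, h4⟩; tauto
      · rintro (rfl | rfl)
        · exact ⟨hiy, by tauto⟩
        · exact ⟨hxy, by tauto⟩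
    have hi' : i ∉ ({x, y} : Finset ι) := by
      simp only [Finset.mem_insert, Finset.mem_singleton]; tauto
    rw [Finset.sum_insert hi', Finset.sum_pair hxy, e1, e2, e3, Finset.prod_pair hxy,
      Finset.prod_pair hiy, Finset.prod_pair hix] at h1
    simp only [Function.update_self, Function.update_of_ne hix.symm, Function.update_of_ne hiy.symm,
      Function.update_of_ne hxy.symm] at h1
    rw [← map_add, ← map_add] at h1
    rw [← h1]
    congr 1
    ring
  intro G hG H hH F hF b hb c hc d hd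
  have h1 := key G hG (F + H) (Submodule.add_mem _ hF hH) b hb c hc d hd
  have h2 := key G hG F hF b hb c hc d hd
  have h3 := key G hG H hH b hb c hc d hd
  have h4 : φ (pl i (b * G) * pl x (c * H) * pl y (d * F) +
      pl i (b * G) * pl x (c * F) * pl y (d * H) +
      pl i (b * H) * pl x (c * G) * pl y (d * F) + pl i (b * F) * pl x (c * G) * pl y (d * H) +
      pl i (b * H) * pl x (c * F) * pl y (d * G) + pl i (b * F) * pl x (c * H) * pl y (d * G)) =
      φ (pl i (b * G) * pl x (c * (F + H)) * pl y (d * (F + H)) +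
        pl i (b * (F + H)) * pl x (c * G) * pl y (d * (F + H)) +
        pl i (b * (F + H)) * pl x (c * (F + H)) * pl y (d * G)) -
      φ (pl i (b * G) * pl x (c * F) * pl y (d * F) + pl i (b * F) * pl x (c * G) * pl y (d * F) +
        pl i (b * F) * pl x (c * F) * pl y (d * G)) -
      φ (pl i (b * G) * pl x (c * H) * pl y (d * H) + pl i (b * H) * pl x (c * G) * pl y (d * H) +
        pl i (b * H) * pl x (c * H) * pl y (d * G)) := by
    rw [← map_sub, ← map_sub]
    congr 1
    simp only [map_mul, map_add]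
    ring
  rw [h4, h1, h2, h3]
  ring

/-- Content swap. -/
lemma cswap (k : R →ₗ[ℂ] ℂ) (p q : ι) (W : R) (r : ℕ)
    (h : ∀ s ∈ L, ∀ t ∈ L, ∀ P ∈ L ^ r, ∀ Q ∈ L ^ r,
      k (pl p (s * P) * pl q (t * Q) * W) = k (pl p (t * P) * pl q (s * Q) * W)) :
    ∀ m n' : ℕ, m + n' = r + 1 → ∀ U ∈ L ^ m, ∀ V ∈ L ^ m, ∀ P ∈ L ^ n', ∀ Q ∈ L ^ n',
      k (pl p (U * P) * pl q (V * Q) * W) = k (pl p (V * P) * pl q (U * Q) * W) := by
  intro m
  induction m with
  | zero =>
    intro n' _ U hU V hV P _ Q _
    rw [pow_zero, Submodule.mem_one] at hU hV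
    obtain ⟨c, rfl⟩ := hU
    obtain ⟨d, rfl⟩ := hV
    congr 1
    simp only [map_mul, AlgHom.commutes]
    ring
  | succ m ih =>
    intro n' hn U hU V hV P hP Q hQ
    have hr : m + n' = r := by omega
    let T : A → A →ₗ[ℂ] ℂ := fun V =>
      (k ∘ₗ LinearMap.mulRight ℂ W ∘ₗ LinearMap.mulRight ℂ (pl q (V * Q)) ∘ₗ
        (pl p).toLinearMap ∘ₗ LinearMap.mulRight ℂ P) -
      (k ∘ₗ LinearMap.mulRight ℂ W ∘ₗ LinearMap.mulLeft ℂ (pl p (V * P)) ∘ₗ
        (pl q).toLinearMap ∘ₗ LinearMap.mulRight ℂ Q)
    have hT : ∀ V U, T V U = k (pl p (U * P) * pl q (V * Q) * W) -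
        k (pl p (V * P) * pl q (U * Q) * W) := fun V U => rfl
    have hTT : ∀ U V, T V U = - T U V := by
      intro U V
      rw [hT, hT]
      ring
    have h0 : ∀ u ∈ L, ∀ U' ∈ L ^ m, ∀ v ∈ L, ∀ V' ∈ L ^ m, T (v * V') (u * U') = 0 := by
      intro u hu U' hU' v hv V' hV'
      rw [hT, sub_eq_zero]
      have e1 : k (pl p (u * U' * P) * pl q (v * V' * Q) * W) =
          k (pl p (U' * (u * P)) * pl q (V' * (v * Q)) * W) := by
        congr 4 <;> ring
      have e2 : k (pl p (V' * (u * P)) * pl q (U' * (v * Q)) * W) =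
          k (pl p (u * (V' * P)) * pl q (v * (U' * Q)) * W) := by
        congr 4 <;> ring
      have e3 : k (pl p (v * (V' * P)) * pl q (u * (U' * Q)) * W) =
          k (pl p (v * V' * P) * pl q (u * U' * Q) * W) := by
        congr 4 <;> ring
      rw [e1, ih (n' + 1) (by omega) U' hU' V' hV' (u * P)
        (by rw [pow_succ']; exact Submodule.mul_mem_mul hu hP) (v * Q)
        (by rw [pow_succ']; exact Submodule.mul_mem_mul hv hQ), e2,
        h u hu v hv (V' * P) (by rw [← hr, pow_add]; exact Submodule.mul_mem_mul hV' hP)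
        (U' * Q) (by rw [← hr, pow_add]; exact Submodule.mul_mem_mul hU' hQ), e3]
    have hpow : L ^ (m + 1) = L ^ (1 + m) := by rw [add_comm]
    rw [hpow] at hU hV
    have h1 : ∀ u ∈ L, ∀ U' ∈ L ^ m, T V (u * U') = 0 := by
      intro u hu U' hU'
      rw [hTT, neg_eq_zero]
      apply span_mul (T (u * U')) _ V hV
      intro v hv V' hV'
      rw [pow_one] at hv
      rw [hTT, h0 u hu U' hU' v hv V' hV', neg_zero]
    have h2 : T V U = 0 := by
      apply span_mul (T V) _ U hU
      intro u hu U' hU'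
      rw [pow_one] at hu
      exact h1 u hu U' hU'
    rw [hT, sub_eq_zero] at h2
    exact h2

/-- Exchange of the contents at two of the three points. -/
lemma H3.exch12 {i x y : ι} (h : H3 pl L a φ i x y) (ha : 2 ≤ a) {u v w : A} (hu : u ∈ L)
    (hv : v ∈ L) (hw : w ∈ L) {P Q F : A} (hP : P ∈ L ^ a) (hQ : Q ∈ L ^ a) (hF : F ∈ L ^ a) :
    φ (det3 pl i x y u v w * (pl i P * pl x Q * pl y F)) =
      φ (det3 pl i x y u v w * (pl i Q * pl x P * pl y F)) := by
  obtain ⟨c, rfl⟩ : ∃ c, a = c + 1 + 1 := ⟨a - 2, by omega⟩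
  have hm : ∀ {s t : ℕ} {X Y : A}, X ∈ L ^ s → Y ∈ L ^ t → X * Y ∈ L ^ (s + t) := by
    intro s t X Y hX hY
    rw [pow_add]; exact Submodule.mul_mem_mul hX hY
  have hl : ∀ {s : ℕ} {X Y : A}, X ∈ L → Y ∈ L ^ s → X * Y ∈ L ^ (s + 1) := by
    intro s X Y hX hY
    rw [pow_succ']; exact Submodule.mul_mem_mul hX hY
  -- step 1
  have s1 : ∀ e ∈ L, ∀ z ∈ L, ∀ X ∈ L ^ (c + 1), ∀ Y ∈ L ^ (c + 1),
      φ (det3 pl i x y u v w * (pl i (e * X) * pl x (z * Y) * pl y F)) =
      φ (det3 pl i x y u v w * (pl i (e * Y) * pl x (z * X) * pl y F)) := by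
    intro e he z hz X hX Y hY
    have t := fun (u v w : A) (hu : u ∈ L) (hv : v ∈ L) (hw : w ∈ L) =>
      h (u * X) (hl hu hX) (v * Y) (hl hv hY) F hF e he z hz w hw
    have t1 := t u v w hu hv hw
    have t2 := t v w u hv hw hu
    have t3 := t w u v hw hu hv
    have t4 := t v u w hv hu hw
    have t5 := t u w v hu hw hv
    have t6 := t w v u hw hv hu
    rw [← sub_eq_zero, ← map_sub]
    have key : det3 pl i x y u v w * (pl i (e * X) * pl x (z * Y) * pl y F) -
        det3 pl i x y u v w * (pl i (e * Y) * pl x (z * X) * pl y F) =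
        (pl i (e * (u * X)) * pl x (z * (v * Y)) * pl y (w * F) +
          pl i (e * (u * X)) * pl x (z * F) * pl y (w * (v * Y)) +
          pl i (e * (v * Y)) * pl x (z * (u * X)) * pl y (w * F) +
          pl i (e * F) * pl x (z * (u * X)) * pl y (w * (v * Y)) +
          pl i (e * (v * Y)) * pl x (z * F) * pl y (w * (u * X)) +
          pl i (e * F) * pl x (z * (v * Y)) * pl y (w * (u * X))) +
        (pl i (e * (v * X)) * pl x (z * (w * Y)) * pl y (u * F) +
          pl i (e * (v * X)) * pl x (z * F) * pl y (u * (w * Y)) +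
          pl i (e * (w * Y)) * pl x (z * (v * X)) * pl y (u * F) +
          pl i (e * F) * pl x (z * (v * X)) * pl y (u * (w * Y)) +
          pl i (e * (w * Y)) * pl x (z * F) * pl y (u * (v * X)) +
          pl i (e * F) * pl x (z * (w * Y)) * pl y (u * (v * X))) +
        (pl i (e * (w * X)) * pl x (z * (u * Y)) * pl y (v * F) +
          pl i (e * (w * X)) * pl x (z * F) * pl y (v * (u * Y)) +
          pl i (e * (u * Y)) * pl x (z * (w * X)) * pl y (v * F) +
          pl i (e * F) * pl x (z * (w * X)) * pl y (v * (u * Y)) +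
          pl i (e * (u * Y)) * pl x (z * F) * pl y (v * (w * X)) +
          pl i (e * F) * pl x (z * (u * Y)) * pl y (v * (w * X))) -
        (pl i (e * (v * X)) * pl x (z * (u * Y)) * pl y (w * F) +
          pl i (e * (v * X)) * pl x (z * F) * pl y (w * (u * Y)) +
          pl i (e * (u * Y)) * pl x (z * (v * X)) * pl y (w * F) +
          pl i (e * F) * pl x (z * (v * X)) * pl y (w * (u * Y)) +
          pl i (e * (u * Y)) * pl x (z * F) * pl y (w * (v * X)) +
          pl i (e * F) * pl x (z * (u * Y)) * pl y (w * (v * X))) -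
        (pl i (e * (u * X)) * pl x (z * (w * Y)) * pl y (v * F) +
          pl i (e * (u * X)) * pl x (z * F) * pl y (v * (w * Y)) +
          pl i (e * (w * Y)) * pl x (z * (u * X)) * pl y (v * F) +
          pl i (e * F) * pl x (z * (u * X)) * pl y (v * (w * Y)) +
          pl i (e * (w * Y)) * pl x (z * F) * pl y (v * (u * X)) +
          pl i (e * F) * pl x (z * (w * Y)) * pl y (v * (u * X))) -
        (pl i (e * (w * X)) * pl x (z * (v * Y)) * pl y (u * F) +
          pl i (e * (w * X)) * pl x (z * F) * pl y (u * (v * Y)) +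
          pl i (e * (v * Y)) * pl x (z * (w * X)) * pl y (u * F) +
          pl i (e * F) * pl x (z * (w * X)) * pl y (u * (v * Y)) +
          pl i (e * (v * Y)) * pl x (z * F) * pl y (u * (w * X)) +
          pl i (e * F) * pl x (z * (v * Y)) * pl y (u * (w * X))) := by
      simp only [det3, map_mul]
      ring
    rw [key, map_sub, map_sub, map_sub, map_add, map_add, t1, t2, t3, t4, t5, t6]
    ring
  -- step 2
  have s2 : ∀ s ∈ L, ∀ t ∈ L, ∀ P ∈ L ^ (c + 1), ∀ Q ∈ L ^ (c + 1),
      φ (det3 pl i x y u v w * (pl i (s * P) * pl x (t * Q) * pl y F)) =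
      φ (det3 pl i x y u v w * (pl i (t * P) * pl x (s * Q) * pl y F)) := by
    intro s hs t ht P hP Q hQ
    let T : A →ₗ[ℂ] ℂ :=
      (mf φ (det3 pl i x y u v w) ∘ₗ LinearMap.mulRight ℂ (pl y F) ∘ₗ
        LinearMap.mulLeft ℂ (pl i (s * P)) ∘ₗ (pl x).toLinearMap ∘ₗ LinearMap.mulLeft ℂ t) -
      (mf φ (det3 pl i x y u v w) ∘ₗ LinearMap.mulRight ℂ (pl y F) ∘ₗ
        LinearMap.mulLeft ℂ (pl i (t * P)) ∘ₗ (pl x).toLinearMap ∘ₗ LinearMap.mulLeft ℂ s)
    have hT : ∀ Q, T Q = φ (det3 pl i x y u v w * (pl i (s * P) * pl x (t * Q) * pl y F)) -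
      φ (det3 pl i x y u v w * (pl i (t * P) * pl x (s * Q) * pl y F)) := fun Q => rfl
    rw [← sub_eq_zero, ← hT]
    have hpow : L ^ (c + 1) = L ^ (1 + c) := by rw [add_comm]
    rw [hpow] at hQ
    apply span_mul T _ Q hQ
    intro z hz Q' hQ'
    rw [pow_one] at hz
    rw [hT, sub_eq_zero]
    have e1 := s1 s hs z hz P hP (t * Q') (hl ht hQ')
    have e2 := s1 t ht z hz P hP (s * Q') (hl hs hQ')
    have f1 : t * (z * Q') = z * (t * Q') := by ring
    have f2 : s * (z * Q') = z * (s * Q') := by ring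
    have f3 : s * (t * Q') = t * (s * Q') := by ring
    rw [f1, f2, e1, e2, f3]
  have s3 := cswap (pl := pl) (L := L) (mf φ (det3 pl i x y u v w)) i x (pl y F) (c + 1)
    (by
      intro s hs t ht P hP Q hQ
      rw [mf_apply, mf_apply]
      exact s2 s hs t ht P hP Q hQ) (c + 1 + 1) 0 (by omega) P hP Q hQ 1 (one_mem_pow_zero L) 1
      (one_mem_pow_zero L)
  rw [mf_apply, mf_apply] at s3
  simpa only [mul_one] using s3

lemma det3_swap12 (i x y : ι) (u v w : A) : det3 pl x i y u v w = - det3 pl i x y u v w := by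
  simp only [det3]; ring

lemma det3_swap23 (i x y : ι) (u v w : A) : det3 pl i y x u v w = - det3 pl i x y u v w := by
  simp only [det3]; ring

/-- The three by three minor kills. -/
theorem H3.det3_zero {i x y : ι} (h : H3 pl L a φ i x y) (ha : 2 ≤ a) {u v w : A} (hu : u ∈ L)
    (hv : v ∈ L) (hw : w ∈ L) {P Q F : A} (hP : P ∈ L ^ a) (hQ : Q ∈ L ^ a) (hF : F ∈ L ^ a) :
    φ (det3 pl i x y u v w * (pl i P * pl x Q * pl y F)) = 0 := by
  have sw12 := fun (P Q F : A) (hP : P ∈ L ^ a) (hQ : Q ∈ L ^ a) (hF : F ∈ L ^ a) =>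
    h.exch12 ha hu hv hw hP hQ hF
  have sw23 : ∀ (P Q F : A), P ∈ L ^ a → Q ∈ L ^ a → F ∈ L ^ a →
      φ (det3 pl i x y u v w * (pl i P * pl x Q * pl y F)) =
      φ (det3 pl i x y u v w * (pl i P * pl x F * pl y Q)) := by
    intro P Q F hP hQ hF
    have h1 := (h.swap12.swap23).exch12 ha hu hv hw hQ hF hP
    have h2 : det3 pl x y i u v w = det3 pl i x y u v w := by
      simp only [det3]; ring
    rw [h2] at h1
    have e1 : pl i P * pl x Q * pl y F = pl x Q * pl y F * pl i P := by ring
    have e2 : pl i P * pl x F * pl y Q = pl x F * pl y Q * pl i P := by ring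
    rw [e1, e2, h1]
  have t := fun (u v w : A) (hu : u ∈ L) (hv : v ∈ L) (hw : w ∈ L) =>
    h P hP Q hQ F hF u hu v hv w hw
  have t1 := t u v w hu hv hw
  have t2 := t v w u hv hw hu
  have t3 := t w u v hw hu hv
  have t4 := t v u w hv hu hw
  have t5 := t u w v hu hw hv
  have t6 := t w v u hw hv hu
  have key : det3 pl i x y u v w * (pl i P * pl x Q * pl y F) +
      det3 pl i x y u v w * (pl i P * pl x F * pl y Q) +
      det3 pl i x y u v w * (pl i Q * pl x P * pl y F) +
      det3 pl i x y u v w * (pl i F * pl x P * pl y Q) +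
      det3 pl i x y u v w * (pl i Q * pl x F * pl y P) +
      det3 pl i x y u v w * (pl i F * pl x Q * pl y P) =
      (pl i (u * P) * pl x (v * Q) * pl y (w * F) + pl i (u * P) * pl x (v * F) * pl y (w * Q) +
        pl i (u * Q) * pl x (v * P) * pl y (w * F) + pl i (u * F) * pl x (v * P) * pl y (w * Q) +
        pl i (u * Q) * pl x (v * F) * pl y (w * P) + pl i (u * F) * pl x (v * Q) * pl y (w * P)) +
      (pl i (v * P) * pl x (w * Q) * pl y (u * F) + pl i (v * P) * pl x (w * F) * pl y (u * Q) +
        pl i (v * Q) * pl x (w * P) * pl y (u * F) + pl i (v * F) * pl x (w * P) * pl y (u * Q) +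
        pl i (v * Q) * pl x (w * F) * pl y (u * P) + pl i (v * F) * pl x (w * Q) * pl y (u * P)) +
      (pl i (w * P) * pl x (u * Q) * pl y (v * F) + pl i (w * P) * pl x (u * F) * pl y (v * Q) +
        pl i (w * Q) * pl x (u * P) * pl y (v * F) + pl i (w * F) * pl x (u * P) * pl y (v * Q) +
        pl i (w * Q) * pl x (u * F) * pl y (v * P) + pl i (w * F) * pl x (u * Q) * pl y (v * P)) -
      (pl i (v * P) * pl x (u * Q) * pl y (w * F) + pl i (v * P) * pl x (u * F) * pl y (w * Q) +
        pl i (v * Q) * pl x (u * P) * pl y (w * F) + pl i (v * F) * pl x (u * P) * pl y (w * Q) +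
        pl i (v * Q) * pl x (u * F) * pl y (w * P) + pl i (v * F) * pl x (u * Q) * pl y (w * P)) -
      (pl i (u * P) * pl x (w * Q) * pl y (v * F) + pl i (u * P) * pl x (w * F) * pl y (v * Q) +
        pl i (u * Q) * pl x (w * P) * pl y (v * F) + pl i (u * F) * pl x (w * P) * pl y (v * Q) +
        pl i (u * Q) * pl x (w * F) * pl y (v * P) + pl i (u * F) * pl x (w * Q) * pl y (v * P)) -
      (pl i (w * P) * pl x (v * Q) * pl y (u * F) + pl i (w * P) * pl x (v * F) * pl y (u * Q) +
        pl i (w * Q) * pl x (v * P) * pl y (u * F) + pl i (w * F) * pl x (v * P) * pl y (u * Q) +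
        pl i (w * Q) * pl x (v * F) * pl y (u * P) + pl i (w * F) * pl x (v * Q) * pl y (u * P)) := by
    simp only [det3, map_mul]
    ring
  have h1 := congrArg φ key
  rw [map_sub, map_sub, map_sub, map_add φ (_ + _) (pl i (w * P) * pl x (u * Q) * pl y (v * F) + _ +
    _ + _ + _ + _), map_add φ (pl i (u * P) * pl x (v * Q) * pl y (w * F) + _ + _ + _ + _ + _)
    (pl i (v * P) * pl x (w * Q) * pl y (u * F) + _ + _ + _ + _ + _),
    t1, t2, t3, t4, t5, t6] at h1
  rw [map_add, map_add, map_add, map_add, map_add] at h1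
  have g1 := sw23 P Q F hP hQ hF
  have g2 := sw12 P Q F hP hQ hF
  have g3 := sw23 Q P F hQ hP hF
  have g4 := sw12 F P Q hF hP hQ
  have g5 := sw23 F Q P hF hQ hP
  linear_combination (1 / 6 : ℂ) * h1 + (1 / 6 : ℂ) * (g1 + g2 + (g2 + g3) + (g1 - g4) +
    (g1 - g4 - g5))

end Vale.Agent.P181.H241
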