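import Vale.Agent.P181.H241.Kp
import Vale.Agent.P181.H241.Three

set_option autoImplicit false

/-! The star lemma. -/

namespace Vale.Agent.P181.H241

open Vale.Agent.P181 Finset

variable {ι : Type*} [DecidableEq ι]
variable {A R : Type*} [CommRing A] [Algebra ℂ A] [CommRing R] [Algebra ℂ R]
variable {pl : ι → A →ₐ[ℂ] R} {L : Submodule ℂ A} {a : ℕ} {φ : R →ₗ[ℂ] ℂ} {M : Finset ι}

/-- Merging of two points. -/
def MergeH (pl : ι → A →ₐ[ℂ] R) (L : Submodule ℂ A) : Prop :=
  ∀ (p q : ι), p ≠ q → ∀ (N : Finset ι), p ∉ N → ∀ (c : ι → ℕ) (cp cq : ℕ) (ω : R →ₗ[ℂ] ℂ),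
    (∀ u ∈ L, ∀ v ∈ L, ∀ P ∈ L ^ cp, ∀ Q ∈ L ^ cq, ∀ B : ι → A, (∀ i ∈ N, B i ∈ L ^ c i) →
      ω (br pl p q u v * (pl p P * pl q Q * ∏ i ∈ N, pl i (B i))) = 0) →
    ∃ γ : R →ₗ[ℂ] ℂ, ∀ P ∈ L ^ (cp + 1), ∀ Q ∈ L ^ (cq + 1), ∀ B : ι → A,
      (∀ i ∈ N, B i ∈ L ^ c i) →
      ω (pl p P * pl q Q * ∏ i ∈ N, pl i (B i)) = γ (pl p (P * Q) * ∏ i ∈ N, pl i (B i))

lemma prod_update_mul {p : ι} (hp : p ∈ M) (B : ι → A) (x F : A) :
    ∏ j ∈ M, pl j (Function.update B p (x * B p) j * F) = pl p x * ∏ j ∈ M, pl j (B j * F) := by
  rw [← Finset.mul_prod_erase _ _ hp, ← Finset.mul_prod_erase M (fun j => pl j (B j * F)) hp,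
    Function.update_self]
  have h5 : ∏ i ∈ M.erase p, pl i (Function.update B p (x * B p) i * F) =
      ∏ i ∈ M.erase p, pl i (B i * F) := by
    apply Finset.prod_congr rfl
    intro i hi
    rw [Function.update_of_ne (Finset.ne_of_mem_erase hi)]
  rw [h5, ← mul_assoc, ← map_mul, mul_assoc]

lemma Kil.br' {b : ι → ℕ} (h : Kil pl L a φ M b) {p i : ι} (hp : p ∈ M) (hi : i ∈ M) (hpi : p ≠ i)
    (hbp : 1 ≤ b p) (hbi : 1 ≤ b i) {u v : A} (hu : u ∈ L) (hv : v ∈ L) :
    Kil pl L a (mf φ (br pl p i u v)) M
      (Function.update (Function.update b p (b p - 1)) i (b i - 1)) := by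
  intro F hF B hB
  have hBp : B p ∈ L ^ (b p - 1) := by
    have h1 := hB p hp
    rwa [Function.update_of_ne hpi, Function.update_self] at h1
  have hBi : B i ∈ L ^ (b i - 1) := by
    have h1 := hB i hi
    rwa [Function.update_self] at h1
  have key : ∀ x ∈ L, ∀ y ∈ L, φ (pl p x * pl i y * ∏ j ∈ M, pl j (B j * F)) = 0 := by
    intro x hx y hy
    have h1 := h F hF (Function.update (Function.update B p (x * B p)) i
      (y * Function.update B p (x * B p) i)) (by
        intro j hj
        by_cases hji : j = i
        · subst hji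
          rw [Function.update_self, Function.update_of_ne hpi.symm]
          have h2 : b j = (b j - 1) + 1 := by omega
          rw [h2, pow_succ']
          exact Submodule.mul_mem_mul hy hBi
        · rw [Function.update_of_ne hji]
          by_cases hjp : j = p
          · subst hjp
            rw [Function.update_self]
            have h2 : b j = (b j - 1) + 1 := by omega
            rw [h2, pow_succ']
            exact Submodule.mul_mem_mul hx hBp
          · rw [Function.update_of_ne hjp]
            have h1 := hB j hj
            rwa [Function.update_of_ne hji, Function.update_of_ne hjp] at h1)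
    rw [prod_update_mul hi, prod_update_mul hp] at h1
    rw [← h1]
    congr 1
    ring
  rw [mf_apply, br, sub_mul, map_sub, key u hu v hv, key v hv u hu, sub_zero]

lemma Kil.brs {b : ι → ℕ} (h : Kil pl L a φ M b) {p : ι} (hp : p ∈ M) (u v : ι → A)
    (hu : ∀ i, u i ∈ L) (hv : ∀ i, v i ∈ L) (I : Finset ι) (hI : I ⊆ M.erase p)
    (hbp : I.card ≤ b p) (hbi : ∀ i ∈ I, 1 ≤ b i) :
    Kil pl L a (mf φ (∏ i ∈ I, br pl p i (u i) (v i))) M
      (fun j => if j = p then b p - I.card else if j ∈ I then b j - 1 else b j) := by
  induction I using Finset.induction_on with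
  | empty =>
    intro F hF B hB
    rw [Finset.prod_empty, mf_apply, one_mul]
    apply h F hF B
    intro j hj
    have h1 := hB j hj
    by_cases hjp : j = p
    · subst hjp
      simpa using h1
    · simpa [hjp] using h1
  | insert i I hi ih =>
    have hiM := hI (Finset.mem_insert_self i I)
    rw [Finset.mem_erase] at hiM
    rw [Finset.card_insert_of_notMem hi] at hbp
    have ih' := ih (fun j hj => hI (Finset.mem_insert_of_mem hj)) (by omega)
      (fun j hj => hbi j (Finset.mem_insert_of_mem hj))
    have h1 := ih'.br' hp hiM.2 (Ne.symm hiM.1) (by simp only [if_true]; omega) (by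
      simp only [hiM.1, hi, if_false]
      exact hbi i (Finset.mem_insert_self i I)) (hu i) (hv i)
    intro F hF B hB
    have h2 := h1 F hF B (by
      intro j hj
      have h3 := hB j hj
      by_cases hji : j = i
      · subst hji
        rw [Function.update_self]
        simp only [hiM.1, hi, if_false]
        simpa [hiM.1] using h3
      · rw [Function.update_of_ne hji]
        by_cases hjp : j = p
        · subst hjp
          rw [Function.update_self]
          simp only [if_true] at h3 ⊢
          rw [Finset.card_insert_of_notMem hi] at h3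
          have h4 : b j - I.card - 1 = b j - (I.card + 1) := by omega
          rw [h4]
          exact h3
        · rw [Function.update_of_ne hjp]
          simp only [hjp, if_false, Finset.mem_insert, hji, false_or] at h3 ⊢
          exact h3)
    rw [mf_apply, mf_apply] at h2
    rw [mf_apply, ← h2, Finset.prod_insert hi]
    congr 1
    ring

/-- The merged lemma. -/
theorem mm (hmerge : MergeH pl L) {p : ι} {I : Finset ι} (hpI : p ∉ I) (ha : 1 ≤ a) {b b' : ℕ}
    (hI : I.card ≤ b' + 1) (T : Finset ι) :
    ∀ (ω : R →ₗ[ℂ] ℂ) (e β : ℕ), 1 ≤ e → p ∉ T → Disjoint T I → I.card ≤ β + T.card * b →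
      (∀ F ∈ L ^ a, ∀ C ∈ L ^ β, ∀ B : ι → A, (∀ i ∈ T, B i ∈ L ^ b) → (∀ i ∈ I, B i ∈ L ^ b') →
        ω (pl p (C * F ^ e) * ((∏ i ∈ T, pl i (B i * F)) * ∏ i ∈ I, pl i (B i * F))) = 0) →
      (∀ j ∈ T, ∀ u ∈ L, ∀ v ∈ L, ∀ C ∈ L ^ (β + e * a - 1), ∀ B : ι → A,
        B j ∈ L ^ (b + a - 1) → (∀ i ∈ T, i ≠ j → B i ∈ L ^ (b + a)) →
        (∀ i ∈ I, B i ∈ L ^ (b' + a)) →
        ω (br pl p j u v * (pl p C * ((∏ i ∈ T, pl i (B i)) * ∏ i ∈ I, pl i (B i)))) = 0) →
      ∀ C ∈ L ^ (β + e * a), ∀ B : ι → A, (∀ i ∈ T, B i ∈ L ^ (b + a)) →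
        (∀ i ∈ I, B i ∈ L ^ (b' + a)) →
        ω (pl p C * ((∏ i ∈ T, pl i (B i)) * ∏ i ∈ I, pl i (B i))) = 0 := by
  induction T using Finset.induction_on with
  | empty =>
    intro ω e β he _ _ hcard hK _ C hC B _ hB
    rw [Finset.prod_empty, one_mul]
    refine Kp (pl := pl) (L := L) (e := e) ω ?_ hI (by simpa using hcard) C hC B hB
    intro F hF C' hC' B' hB'
    have h1 := hK F hF C' hC' B' (by simp) hB'
    rw [Finset.prod_empty, one_mul] at h1
    exact h1
  | insert q T hq ih =>
    intro ω e β he hpT hdis hcard hK hX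
    rw [Finset.mem_insert, not_or] at hpT
    rw [Finset.disjoint_insert_left] at hdis
    rw [Finset.card_insert_of_notMem hq] at hcard
    have hea : 1 ≤ e * a := Nat.one_le_iff_ne_zero.2 (Nat.mul_ne_zero (by omega) (by omega))
    have hpN : p ∉ T ∪ I := by
      rw [Finset.mem_union, not_or]; exact ⟨hpT.2, hpI⟩
    have hprodN : ∀ B : ι → A, ∏ i ∈ T ∪ I, pl i (B i) =
        (∏ i ∈ T, pl i (B i)) * ∏ i ∈ I, pl i (B i) := fun B => Finset.prod_union hdis.2
    have hqI : q ∉ I := hdis.1
    obtain ⟨γ, hγ⟩ := hmerge p q hpT.1 (T ∪ I) hpN (fun i => if i ∈ T then b + a else b' + a)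
      (β + e * a - 1) (b + a - 1) ω (by
        intro u hu v hv P hP Q hQ B hB
        have h1 := hX q (Finset.mem_insert_self q T) u hu v hv P hP (Function.update B q Q)
          (by rw [Function.update_self]; exact hQ) (by
            intro i hi hiq
            rw [Function.update_of_ne hiq]
            have hiT : i ∈ T := (Finset.mem_insert.1 hi).resolve_left hiq
            have h2 := hB i (Finset.mem_union_left _ hiT)
            simpa [hiT] using h2) (by
            intro i hi
            have hiq : i ≠ q := ne_of_mem_of_not_mem hi hqI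
            rw [Function.update_of_ne hiq]
            have hiT : i ∉ T := fun h => Finset.disjoint_left.1 hdis.2 h hi
            have h2 := hB i (Finset.mem_union_right _ hi)
            simpa [hiT] using h2)
        rw [← h1, hprodN, Finset.prod_insert hq, Function.update_self]
        have e1 : ∏ i ∈ T, pl i (Function.update B q Q i) = ∏ i ∈ T, pl i (B i) := by
          apply Finset.prod_congr rfl
          intro i hi
          rw [Function.update_of_ne (ne_of_mem_of_not_mem hi hq)]
        have e2 : ∏ i ∈ I, pl i (Function.update B q Q i) = ∏ i ∈ I, pl i (B i) := by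
          apply Finset.prod_congr rfl
          intro i hi
          rw [Function.update_of_ne (ne_of_mem_of_not_mem hi hqI)]
        rw [e1, e2]
        congr 1
        ring)
    have hc1 : β + e * a - 1 + 1 = β + e * a := by omega
    have hc2 : b + a - 1 + 1 = b + a := by omega
    rw [hc1, hc2] at hγ
    have hγ' : ∀ P ∈ L ^ (β + e * a), ∀ Q ∈ L ^ (b + a), ∀ B : ι → A,
        (∀ i ∈ T, B i ∈ L ^ (b + a)) → (∀ i ∈ I, B i ∈ L ^ (b' + a)) →
        ω (pl p P * pl q Q * ((∏ i ∈ T, pl i (B i)) * ∏ i ∈ I, pl i (B i))) =
        γ (pl p (P * Q) * ((∏ i ∈ T, pl i (B i)) * ∏ i ∈ I, pl i (B i))) := by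
      intro P hP Q hQ B hB1 hB2
      rw [← hprodN]
      apply hγ P hP Q hQ B
      intro i hi
      by_cases hiT : i ∈ T
      · simp only [hiT, if_true]; exact hB1 i hiT
      · simp only [hiT, if_false]
        exact hB2 i ((Finset.mem_union.1 hi).resolve_left hiT)
    have ih' := ih γ (e + 1) (β + b) (by omega) hpT.2 hdis.2 (by
      have : (T.card + 1) * b = T.card * b + b := by ring
      omega) ?_ ?_
    · intro C hC B hB1 hB2
      rw [Finset.prod_insert hq]
      have h1 := hγ' C hC (B q) (hB1 q (Finset.mem_insert_self q T)) B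
        (fun i hi => hB1 i (Finset.mem_insert_of_mem hi)) hB2
      have h2 := ih' (C * B q) (by
        have h3 : β + b + (e + 1) * a = (β + e * a) + (b + a) := by ring
        rw [h3, pow_add]
        exact Submodule.mul_mem_mul hC (hB1 q (Finset.mem_insert_self q T))) B
        (fun i hi => hB1 i (Finset.mem_insert_of_mem hi)) hB2
      rw [h2] at h1
      rw [← h1]
      congr 1
      ring
    · -- the family
      intro F hF C hC B hB1 hB2
      let T' : A →ₗ[ℂ] ℂ := γ ∘ₗ LinearMap.mulRight ℂ
        ((∏ i ∈ T, pl i (B i * F)) * ∏ i ∈ I, pl i (B i * F)) ∘ₗ (pl p).toLinearMap ∘ₗ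
        LinearMap.mulRight ℂ (F ^ (e + 1))
      have hT' : ∀ X, T' X = γ (pl p (X * F ^ (e + 1)) *
        ((∏ i ∈ T, pl i (B i * F)) * ∏ i ∈ I, pl i (B i * F))) := fun X => rfl
      rw [← hT']
      apply span_mul T' _ C hC
      intro x hx y hy
      rw [hT']
      have e1 : x * y * F ^ (e + 1) = (x * F ^ e) * (y * F) := by ring
      have hFe : F ^ e ∈ L ^ (e * a) := by
        rw [mul_comm, pow_mul]; exact Submodule.pow_mem_pow _ hF e
      rw [e1, ← hγ' (x * F ^ e) (by rw [pow_add]; exact Submodule.mul_mem_mul hx hFe)
        (y * F) (by rw [pow_add]; exact Submodule.mul_mem_mul hy hF) (fun i => B i * F)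
        (fun i hi => by rw [pow_add]; exact Submodule.mul_mem_mul (hB1 i hi) hF)
        (fun i hi => by rw [pow_add]; exact Submodule.mul_mem_mul (hB2 i hi) hF)]
      have h1 := hK F hF x hx (Function.update B q y) (by
        intro i hi
        by_cases hiq : i = q
        · subst hiq; rw [Function.update_self]; exact hy
        · rw [Function.update_of_ne hiq]
          exact hB1 i ((Finset.mem_insert.1 hi).resolve_left hiq)) (by
        intro i hi
        have hiq : i ≠ q := ne_of_mem_of_not_mem hi hqI
        rw [Function.update_of_ne hiq]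
        exact hB2 i hi)
      rw [← h1, Finset.prod_insert hq, Function.update_self]
      have e2 : ∏ i ∈ T, pl i (Function.update B q y i * F) = ∏ i ∈ T, pl i (B i * F) := by
        apply Finset.prod_congr rfl
        intro i hi
        rw [Function.update_of_ne (ne_of_mem_of_not_mem hi hq)]
      have e3 : ∏ i ∈ I, pl i (Function.update B q y i * F) = ∏ i ∈ I, pl i (B i * F) := by
        apply Finset.prod_congr rfl
        intro i hi
        rw [Function.update_of_ne (ne_of_mem_of_not_mem hi hqI)]
      rw [e2, e3]
      congr 1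
      ring
    · -- exchange
      intro j hj u hu v hv C hC B hBj hB1 hB2
      have hjq : j ≠ q := ne_of_mem_of_not_mem hj hq
      have hjI : j ∉ I := fun h => Finset.disjoint_left.1 hdis.2 hj h
      let T' : A →ₗ[ℂ] ℂ := γ ∘ₗ LinearMap.mulLeft ℂ (br pl p j u v) ∘ₗ LinearMap.mulRight ℂ
        ((∏ i ∈ T, pl i (B i)) * ∏ i ∈ I, pl i (B i)) ∘ₗ (pl p).toLinearMap
      have hT' : ∀ X, T' X = γ (br pl p j u v * (pl p X *
        ((∏ i ∈ T, pl i (B i)) * ∏ i ∈ I, pl i (B i)))) := fun X => rfl
      rw [← hT']
      have hdeg : β + b + (e + 1) * a - 1 = (β + e * a - 1) + (b + a) := by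
        have : (e + 1) * a = e * a + a := by ring
        omega
      rw [hdeg] at hC
      apply span_mul T' _ C hC
      intro x hx y hy
      rw [hT']
      have key : ∀ s ∈ L, ∀ t ∈ L, γ (pl p (s * x * y) *
          ((∏ i ∈ T, pl i (Function.update B j (t * B j) i)) * ∏ i ∈ I, pl i (B i))) =
          ω (pl p s * pl j t * (pl p x * pl q y * ((∏ i ∈ T, pl i (B i)) *
            ∏ i ∈ I, pl i (B i)))) := by
        intro s hs t ht
        have e3 : ∏ i ∈ I, pl i (Function.update B j (t * B j) i) = ∏ i ∈ I, pl i (B i) := by
          apply Finset.prod_congr rfl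
          intro i hi
          rw [Function.update_of_ne (ne_of_mem_of_not_mem hi hjI)]
        have h1 := hγ' (s * x) (by
          have h3 : β + e * a = (β + e * a - 1) + 1 := by omega
          rw [h3, pow_succ']
          exact Submodule.mul_mem_mul hs hx) y hy (Function.update B j (t * B j)) (by
          intro i hi
          by_cases hij : i = j
          · subst hij
            rw [Function.update_self]
            have h3 : b + a = (b + a - 1) + 1 := by omega
            rw [h3, pow_succ']
            exact Submodule.mul_mem_mul ht hBj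
          · rw [Function.update_of_ne hij]
            exact hB1 i hi hij) (by
          intro i hi
          rw [Function.update_of_ne (ne_of_mem_of_not_mem hi hjI)]
          exact hB2 i hi)
        rw [e3] at h1
        rw [← h1]
        have e4 : ∏ i ∈ T, pl i (Function.update B j (t * B j) i) =
            pl j t * ∏ i ∈ T, pl i (B i) := by
          have h4 := prod_update_mul (pl := pl) hj B t 1
          simpa only [mul_one] using h4
        rw [e4, map_mul (pl p) s x]
        congr 1
        ring
      have e4 : ∀ t, ∏ i ∈ T, pl i (Function.update B j (t * B j) i) =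
          pl j t * ∏ i ∈ T, pl i (B i) := by
        intro t
        have h4 := prod_update_mul (pl := pl) hj B t 1
        simpa only [mul_one] using h4
      have e5 : br pl p j u v * (pl p (x * y) * ((∏ i ∈ T, pl i (B i)) * ∏ i ∈ I, pl i (B i))) =
          pl p (u * x * y) * ((∏ i ∈ T, pl i (Function.update B j (v * B j) i)) *
            ∏ i ∈ I, pl i (B i)) -
          pl p (v * x * y) * ((∏ i ∈ T, pl i (Function.update B j (u * B j) i)) *
            ∏ i ∈ I, pl i (B i)) := by
        rw [e4, e4]
        simp only [br, map_mul]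
        ring
      rw [e5, map_sub, key u hu v hv, key v hv u hu, ← map_sub]
      have h1 := hX j (Finset.mem_insert_of_mem hj) u hu v hv x hx (Function.update B q y)
        (by rw [Function.update_of_ne hjq]; exact hBj) (by
          intro i hi hij
          by_cases hiq : i = q
          · subst hiq; rw [Function.update_self]; exact hy
          · rw [Function.update_of_ne hiq]
            exact hB1 i ((Finset.mem_insert.1 hi).resolve_left hiq) hij) (by
          intro i hi
          have hiq : i ≠ q := ne_of_mem_of_not_mem hi hqI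
          rw [Function.update_of_ne hiq]
          exact hB2 i hi)
      rw [← h1, Finset.prod_insert hq, Function.update_self]
      have e2 : ∏ i ∈ T, pl i (Function.update B q y i) = ∏ i ∈ T, pl i (B i) := by
        apply Finset.prod_congr rfl
        intro i hi
        rw [Function.update_of_ne (ne_of_mem_of_not_mem hi hq)]
      have e3 : ∏ i ∈ I, pl i (Function.update B q y i) = ∏ i ∈ I, pl i (B i) := by
        apply Finset.prod_congr rfl
        intro i hi
        rw [Function.update_of_ne (ne_of_mem_of_not_mem hi hqI)]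
      rw [e2, e3]
      congr 1
      simp only [br]
      ring

/-- The star lemma. -/
theorem star (hmerge : MergeH pl L) {p : ι} (hp : p ∈ M) (ha : 1 ≤ a) (hM : 3 ≤ M.card)
    (h : Kil pl L a φ M (fun _ => M.card - 2))
    (hs : ∀ u v : ι → A, (∀ i, u i ∈ L) → (∀ i, v i ∈ L) → ∀ C ∈ L ^ (a - 1), ∀ B : ι → A,
      (∀ i ∈ M.erase p, B i ∈ L ^ (a + (M.card - 3))) →
      φ ((∏ j ∈ M.erase p, br pl p j (u j) (v j)) * (pl p C * ∏ i ∈ M.erase p, pl i (B i))) = 0) :
    ∀ C ∈ L ^ (a + (M.card - 2)), ∀ B : ι → A, (∀ i ∈ M.erase p, B i ∈ L ^ (a + (M.card - 2))) →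
      φ (pl p C * ∏ i ∈ M.erase p, pl i (B i)) = 0 := by
  have hJ : (M.erase p).card = M.card - 1 := Finset.card_erase_of_mem hp
  have main : ∀ t : ℕ, ∀ I : Finset ι, I ⊆ M.erase p → I.card + t = M.card - 1 →
      ∀ u v : ι → A, (∀ i, u i ∈ L) → (∀ i, v i ∈ L) →
      ∀ C ∈ L ^ (a + (M.card - 2) - I.card), ∀ B : ι → A,
      (∀ i ∈ I, B i ∈ L ^ (a + (M.card - 3))) →
      (∀ i ∈ (M.erase p) \ I, B i ∈ L ^ (a + (M.card - 2))) →
      φ ((∏ j ∈ I, br pl p j (u j) (v j)) * (pl p C * ∏ i ∈ M.erase p, pl i (B i))) = 0 := by
    intro t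
    induction t with
    | zero =>
      intro I hI hcard u v hu hv C hC B hB1 _
      have hIJ : I = M.erase p := Finset.eq_of_subset_of_card_le hI (by omega)
      subst hIJ
      have h1 : a + (M.card - 2) - (M.erase p).card = a - 1 := by omega
      rw [h1] at hC
      exact hs u v hu hv C hC B hB1
    | succ t ih =>
      intro I hI hcard u v hu hv C hC B hB1 hB2
      have hpI : p ∉ I := fun h => (Finset.mem_erase.1 (hI h)).1 rfl
      have hcI : I.card ≤ M.card - 2 := by omega
      set T := (M.erase p) \ I with hT
      have hTcard : T.card = t + 1 := by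
        rw [hT, Finset.card_sdiff_of_subset hI, hJ]; omega
      have hpT : p ∉ T := fun h => (Finset.mem_erase.1 (Finset.mem_sdiff.1 h).1).1 rfl
      have hdis : Disjoint T I := Finset.sdiff_disjoint
      have hunion : T ∪ I = M.erase p := Finset.sdiff_union_of_subset hI
      have hprod : ∀ Q : ι → R, ∏ i ∈ M.erase p, Q i = (∏ i ∈ T, Q i) * ∏ i ∈ I, Q i := by
        intro Q; rw [← hunion, Finset.prod_union hdis]
      have hMp : ∀ Q : ι → R, ∏ i ∈ M, Q i = Q p * ∏ i ∈ M.erase p, Q i := fun Q =>
        (Finset.mul_prod_erase M Q hp).symm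
      have hkey := mm hmerge hpI ha (b := M.card - 2) (b' := M.card - 3) (by omega) T
        (mf φ (∏ j ∈ I, br pl p j (u j) (v j))) 1 (M.card - 2 - I.card) le_rfl hpT hdis (by
          rw [hTcard]
          have h2 : (t + 1) * (M.card - 2) = t * (M.card - 2) + (M.card - 2) := by ring
          have h3 : t ≤ t * (M.card - 2) := Nat.le_mul_of_pos_right _ (by omega)
          omega) ?_ ?_ C (by
          rw [one_mul]
          have h2 : M.card - 2 - I.card + a = a + (M.card - 2) - I.card := by omega
          rw [h2]; exact hC) B (fun i hi => by rw [add_comm]; exact hB2 i hi)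
          (fun i hi => by rw [add_comm]; exact hB1 i hi)
      · rw [mf_apply, ← hprod] at hkey
        exact hkey
      · intro F hF C' hC' B' hB'1 hB'2
        have h1 := h.brs hp u v hu hv I hI (by simpa using hcI) (fun _ _ => by omega)
        have h2 := h1 F hF (Function.update B' p C') (by
          intro j hj
          by_cases hjp : j = p
          · subst hjp
            rw [Function.update_self]
            simp only [if_true]
            exact hC'
          · rw [Function.update_of_ne hjp]
            simp only [hjp, if_false]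
            by_cases hjI : j ∈ I
            · simp only [hjI, if_true]
              exact hB'2 j hjI
            · simp only [hjI, if_false]
              exact hB'1 j (Finset.mem_sdiff.2 ⟨Finset.mem_erase.2 ⟨hjp, hj⟩, hjI⟩))
        rw [mf_apply] at h2
        rw [mf_apply, ← h2, hMp, Function.update_self, pow_one, ← hprod]
        congr 3
        apply Finset.prod_congr rfl
        intro i hi
        rw [Function.update_of_ne (Finset.mem_erase.1 hi).1]
      · intro j hj u' hu' v' hv' C' hC' B' hB'j hB'1 hB'2
        have hjI : j ∉ I := (Finset.mem_sdiff.1 hj).2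
        have hjM : j ∈ M.erase p := (Finset.mem_sdiff.1 hj).1
        have h1 := ih (insert j I) (Finset.insert_subset hjM hI) (by
          rw [Finset.card_insert_of_notMem hjI]; omega) (Function.update u j u')
          (Function.update v j v') (by
            intro i
            by_cases hij : i = j
            · subst hij; rw [Function.update_self]; exact hu'
            · rw [Function.update_of_ne hij]; exact hu i) (by
            intro i
            by_cases hij : i = j
            · subst hij; rw [Function.update_self]; exact hv'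
            · rw [Function.update_of_ne hij]; exact hv i) C' (by
            rw [Finset.card_insert_of_notMem hjI]
            have h2 : M.card - 2 - I.card + 1 * a - 1 = a + (M.card - 2) - (I.card + 1) := by
              omega
            rw [h2] at hC'; exact hC') B' (by
            intro i hi
            rcases Finset.mem_insert.1 hi with rfl | hi
            · have h2 : M.card - 2 + a - 1 = a + (M.card - 3) := by omega
              rw [h2] at hB'j
              exact hB'j
            · have := hB'2 i hi
              rwa [add_comm] at this) (by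
            intro i hi
            rw [Finset.mem_sdiff, Finset.mem_insert, not_or] at hi
            have := hB'1 i (Finset.mem_sdiff.2 ⟨hi.1, hi.2.2⟩) hi.2.1
            rwa [add_comm] at this)
        rw [mf_apply, ← hprod, ← h1, Finset.prod_insert hjI, Function.update_self,
          Function.update_self]
        have e1 : ∏ x ∈ I, br pl p x (Function.update u j u' x) (Function.update v j v' x) =
            ∏ x ∈ I, br pl p x (u x) (v x) := by
          apply Finset.prod_congr rfl
          intro i hi
          have hij : i ≠ j := ne_of_mem_of_not_mem hi hjI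
          rw [Function.update_of_ne hij, Function.update_of_ne hij]
        rw [e1]
        congr 1
        ring
  intro C hC B hB
  have h1 := main (M.card - 1) ∅ (Finset.empty_subset _) (by simp) (fun _ => 0) (fun _ => 0)
    (fun _ => L.zero_mem) (fun _ => L.zero_mem) C (by simpa using hC) B (by simp)
    (by simpa using hB)
  simpa using h1

end Vale.Agent.P181.H241
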