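import Vale.Agent.P181.H241.Fin2
import Vale.Agent.P181.H563.End

set_option autoImplicit false

/-! The main theorem on functionals. -/

namespace Vale.Agent.P181.H241

open Vale.Agent.P181 Vale.Agent.P181.H280 Vale.Agent.P181.H414 Finset MvPolynomial

variable {N : ℕ}

lemma sA_p1 (t : Fin (N + 1)) : (1 : Fin (N + 2)).succAbove t = p1 N t := by
  refine Fin.cases ?_ (fun j => ?_) t
  · rw [p1, Fin.cons_zero]
    apply Fin.succAbove_of_castSucc_lt
    rw [Fin.castSucc_zero, Fin.lt_def]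
    simp
  · rw [p1, Fin.cons_succ]
    apply Fin.succAbove_of_le_castSucc
    rw [Fin.le_def]
    simp

/-- **Main theorem.** -/
theorem main (hN : 2 ≤ N) (f : MvPolynomial (Fin (N + 2) × Fin (N + 1)) ℂ →ₗ[ℂ] ℂ)
    (mu : Fin (N + 1) → ℕ)
    (hs : ∀ σ : Equiv.Perm (Fin (N + 2)), ∀ M, f (rename (fun p => (σ p.1, p.2)) M) = f M)
    (hdeg : ∀ d : (Fin (N + 2) × Fin (N + 1)) →₀ ℕ, (¬ ∀ i, ∑ k, d (i, k) = 2 * (N + 2)) →
      f (monomial d 1) = 0)
    (hmu : ∀ k, 2 ≤ mu k)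
    (h0 : ∀ m k : Fin (N + 1), m < k → ∀ M, f (pol k m M) = 0)
    (h1 : ∀ (m : Fin (N + 1)) M, f (pol m m M) = (mu m : ℂ) * f M)
    (hk : ∀ F ∈ linS (N + 1) ^ (N + 2), f (∏ i, rename (Prod.mk i) (F * F)) = 0) : f = 0 := by
  have hF := stepF hN (f := f) (fun σ M => hs σ M) (Supp_of_monomial f _ hdeg) hk
  apply H563.endd f mu hs hdeg hmu h0 h1
  intro M
  have h2 := LinearMap.congr_fun hF M
  rw [mf_apply, mul_assoc] at h2
  have e1 : Matrix.det (Matrix.of fun s t : Fin (N + 1) => (X ((1 : Fin (N + 2)).succAbove t, s) :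
      MvPolynomial (Fin (N + 2) × Fin (N + 1)) ℂ)) = D1 N := by
    rw [D1, Dt]
    congr 1
    ext s t : 1
    rw [Matrix.of_apply, Matrix.of_apply, sA_p1]
  rw [e1]
  exact h2

end Vale.Agent.P181.H241
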